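import Vale.Agent.P365.Bdl.B1

/-!
# P365, LOC-1: finite linear algebra of the Green matrix.

Absorption profile `e x = -(W x).im > 0`.  `Gr A W = (A + diag W)⁻¹` (from `Bdl.B1`).
-/

set_option linter.all false

namespace P365L

open Matrix Complex
open scoped ComplexConjugate

variable {ι : Type*} [Fintype ι] [DecidableEq ι]

/-- `m_x = Im G_xx` -/
noncomputable def mm (A : Matrix ι ι ℝ) (W : ι → ℂ) (x : ι) : ℝ := (Gr A W x x).im

/-- `K_xy = |G_xy|^2` -/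
noncomputable def KK (A : Matrix ι ι ℝ) (W : ι → ℂ) (x y : ι) : ℝ := ‖Gr A W x y‖ ^ 2

/-- `P_xy = e_y K_xy / m_x`, `e_y = -Im W_y` -/
noncomputable def PP (A : Matrix ι ι ℝ) (W : ι → ℂ) (x y : ι) : ℝ :=
  (-(W y).im) * KK A W x y / mm A W x

/-- `mu_x = (P a)_x - a_x` -/
noncomputable def muf (A : Matrix ι ι ℝ) (W : ι → ℂ) (a : ι → ℝ) (x : ι) : ℝ :=
  (∑ y, PP A W x y * a y) - a x

/-- `B = [A, a]` -/
noncomputable def Bm (A : Matrix ι ι ℝ) (a : ι → ℝ) : Matrix ι ι ℂ :=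
  Matrix.of fun p q => ((A p q * (a q - a p) : ℝ) : ℂ)

/-- `T = (i/2) G^* [A,a] G` -/
noncomputable def Tm (A : Matrix ι ι ℝ) (W : ι → ℂ) (a : ι → ℝ) : Matrix ι ι ℂ :=
  (I / 2) • ((Gr A W)ᴴ * Bm A a * Gr A W)

variable {A : Matrix ι ι ℝ} {W : ι → ℂ} {a : ι → ℝ}

theorem Kmat_mul_Gr (hA : A.IsSymm) (hW : ∀ x, (W x).im < 0) : Kmat A W * Gr A W = 1 :=
  Matrix.mul_nonsing_inv _ (isUnit_iff_ne_zero.2 (det_ne_zero hA hW))

theorem Gr_mul_Kmat (hA : A.IsSymm) (hW : ∀ x, (W x).im < 0) : Gr A W * Kmat A W = 1 :=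
  Matrix.nonsing_inv_mul _ (isUnit_iff_ne_zero.2 (det_ne_zero hA hW))

theorem Gr_transpose (hA : A.IsSymm) : (Gr A W)ᵀ = Gr A W := by
  ext x y
  rw [Matrix.transpose_apply, Gr_symm hA]

theorem GrH_apply (hA : A.IsSymm) (x y : ι) : (Gr A W)ᴴ x y = conj (Gr A W x y) := by
  rw [Matrix.conjTranspose_apply, Gr_symm hA y x]
  rfl

omit [Fintype ι] in
theorem Kmat_conjTranspose (hA : A.IsSymm) :
    (Kmat A W)ᴴ = Kmat A W + (2 * I) • Matrix.diagonal (fun x => ((-(W x).im : ℝ) : ℂ)) := by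
  ext x y
  rw [Matrix.conjTranspose_apply, Kmat, Matrix.add_apply, Matrix.add_apply, Matrix.add_apply,
    Matrix.map_apply, Matrix.map_apply, hA.apply, Matrix.smul_apply]
  by_cases h : x = y
  · subst h
    rw [Matrix.diagonal_apply_eq, Matrix.diagonal_apply_eq]
    apply Complex.ext
    · simp
    · simp
      ring
  · rw [Matrix.diagonal_apply_ne _ (Ne.symm h), Matrix.diagonal_apply_ne _ h,
      Matrix.diagonal_apply_ne _ h]
    simp

/-- `G^* K = 1 - 2 i G^* E` -/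
theorem GrH_mul_Kmat (hA : A.IsSymm) (hW : ∀ x, (W x).im < 0) :
    (Gr A W)ᴴ * Kmat A W =
      1 - (2 * I) • ((Gr A W)ᴴ * Matrix.diagonal (fun x => ((-(W x).im : ℝ) : ℂ))) := by
  have h1 : (Gr A W)ᴴ * (Kmat A W)ᴴ = 1 := by
    rw [← Matrix.conjTranspose_mul, Kmat_mul_Gr hA hW, Matrix.conjTranspose_one]
  rw [Kmat_conjTranspose hA, Matrix.mul_add, Matrix.mul_smul] at h1
  rw [← h1]
  abel

/-- Ward identity, matrix form -/
theorem Ward (hA : A.IsSymm) (hW : ∀ x, (W x).im < 0) :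
    Gr A W - (Gr A W)ᴴ =
      (2 * I) • ((Gr A W)ᴴ * Matrix.diagonal (fun x => ((-(W x).im : ℝ) : ℂ)) * Gr A W) := by
  have h1 : (Gr A W)ᴴ * Kmat A W * Gr A W = (Gr A W)ᴴ := by
    rw [Matrix.mul_assoc, Kmat_mul_Gr hA hW, Matrix.mul_one]
  rw [GrH_mul_Kmat hA hW, Matrix.sub_mul, Matrix.one_mul, Matrix.smul_mul] at h1
  have h2 := sub_eq_iff_eq_add.1 h1
  rw [sub_eq_iff_eq_add, add_comm]
  exact h2

/-- Ward identity, entries: `Im G_xz = sum_y e_y conj(G_xy) G_yz` -/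
theorem Ward_apply (hA : A.IsSymm) (hW : ∀ x, (W x).im < 0) (x z : ι) :
    (((Gr A W x z).im : ℝ) : ℂ) =
      ∑ y, ((-(W y).im : ℝ) : ℂ) * (conj (Gr A W x y) * Gr A W y z) := by
  have h := congrFun (congrFun (Ward hA hW) x) z
  rw [Matrix.sub_apply, GrH_apply hA, Matrix.smul_apply, Matrix.mul_apply] at h
  have h2 : Gr A W x z - conj (Gr A W x z) = (2 * I) * (((Gr A W x z).im : ℝ) : ℂ) := by
    rw [Complex.sub_conj]
    push_cast
    ring
  rw [h2, smul_eq_mul] at h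
  have h3 : (2 * I : ℂ) ≠ 0 := by simp
  rw [mul_left_cancel₀ h3 h]
  refine Finset.sum_congr rfl fun y _ => ?_
  rw [Matrix.mul_diagonal, GrH_apply hA]
  ring

theorem mm_eq (hA : A.IsSymm) (hW : ∀ x, (W x).im < 0) (x : ι) :
    mm A W x = ∑ y, (-(W y).im) * KK A W x y := by
  rw [mm, Gr_flux hA hW]
  refine Finset.sum_congr rfl fun y _ => ?_
  rw [KK, Gr_symm hA y x]

theorem KK_nonneg (x y : ι) : 0 ≤ KK A W x y := sq_nonneg _

theorem KK_symm (hA : A.IsSymm) (x y : ι) : KK A W x y = KK A W y x := by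
  rw [KK, KK, Gr_symm hA]

theorem Gr_self_ne_zero (hA : A.IsSymm) (hW : ∀ x, (W x).im < 0) (x : ι) : Gr A W x x ≠ 0 := by
  intro h
  have h1 := Gr_flux hA hW x
  rw [h, Complex.zero_im] at h1
  have h2 : ∀ y ∈ (Finset.univ : Finset ι), 0 ≤ (-(W y).im) * ‖Gr A W y x‖ ^ 2 := fun y _ =>
    mul_nonneg (by linarith [hW y]) (sq_nonneg _)
  have h3 := (Finset.sum_eq_zero_iff_of_nonneg h2).1 h1.symm
  have h4 := Kmat_mulVec_Gr hA hW x x
  have h5 : (fun z => Gr A W z x) = 0 := by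
    funext z
    have h6 := h3 z (Finset.mem_univ z)
    have h7 : ‖Gr A W z x‖ ^ 2 = 0 :=
      (mul_eq_zero.1 h6).resolve_left (by have := hW z; intro h; linarith)
    simpa using h7
  rw [h5, Matrix.mulVec_zero, if_pos rfl] at h4
  exact zero_ne_one h4

theorem mm_pos (hA : A.IsSymm) (hW : ∀ x, (W x).im < 0) (x : ι) : 0 < mm A W x := by
  rw [mm_eq hA hW]
  have h0 : 0 < (-(W x).im) * KK A W x x :=
    mul_pos (by linarith [hW x]) (pow_pos (norm_pos_iff.2 (Gr_self_ne_zero hA hW x)) 2)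
  exact h0.trans_le (Finset.single_le_sum (f := fun y => (-(W y).im) * KK A W x y)
    (fun y _ => mul_nonneg (by linarith [hW y]) (KK_nonneg _ _)) (Finset.mem_univ x))

theorem e_mul_KK_le (hA : A.IsSymm) (hW : ∀ x, (W x).im < 0) (x y : ι) :
    (-(W y).im) * KK A W x y ≤ mm A W x := by
  rw [mm_eq hA hW]
  exact Finset.single_le_sum (f := fun y => (-(W y).im) * KK A W x y)
    (fun y _ => mul_nonneg (by linarith [hW y]) (KK_nonneg _ _)) (Finset.mem_univ y)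

theorem PP_nonneg (hA : A.IsSymm) (hW : ∀ x, (W x).im < 0) (x y : ι) : 0 ≤ PP A W x y :=
  div_nonneg (mul_nonneg (by linarith [hW y]) (KK_nonneg _ _)) (mm_pos hA hW x).le

theorem PP_sum (hA : A.IsSymm) (hW : ∀ x, (W x).im < 0) (x : ι) : ∑ y, PP A W x y = 1 := by
  unfold PP
  rw [← Finset.sum_div, ← mm_eq hA hW, div_self (mm_pos hA hW x).ne']

/-- reversibility w.r.t. `e m` -/
theorem PP_rev (hA : A.IsSymm) (hW : ∀ x, (W x).im < 0) (x y : ι) :
    (-(W x).im) * mm A W x * PP A W x y = (-(W y).im) * mm A W y * PP A W y x := by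
  unfold PP
  rw [KK_symm hA y x]
  have h1 := (mm_pos hA hW x).ne'
  have h2 := (mm_pos hA hW y).ne'
  field_simp

/-- `m_x mu_x = sum_y e_y K_xy (a_y - a_x)` -/
theorem mm_mul_muf (hA : A.IsSymm) (hW : ∀ x, (W x).im < 0) (x : ι) :
    mm A W x * muf A W a x = ∑ y, (-(W y).im) * KK A W x y * (a y - a x) := by
  have h1 := (mm_pos hA hW x).ne'
  have h2 : mm A W x * ∑ y, PP A W x y * a y = ∑ y, (-(W y).im) * KK A W x y * a y := by
    rw [Finset.mul_sum]
    refine Finset.sum_congr rfl fun y _ => ?_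
    unfold PP
    field_simp
  rw [muf, mul_sub, h2]
  simp only [mul_sub, Finset.sum_sub_distrib]
  rw [← Finset.sum_mul, ← mm_eq hA hW]

/-! ### the matrix `T` -/

omit [Fintype ι] in
theorem Bm_conjTranspose (hA : A.IsSymm) : (Bm A a)ᴴ = -Bm A a := by
  ext x y
  rw [Matrix.conjTranspose_apply, Matrix.neg_apply, Bm, Matrix.of_apply, Matrix.of_apply,
    hA.apply]
  simp only [RCLike.star_def, Complex.conj_ofReal]
  push_cast
  ring

theorem Bm_eq : Bm A a = Kmat A W * Matrix.diagonal (fun x => ((a x : ℝ) : ℂ)) -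
    Matrix.diagonal (fun x => ((a x : ℝ) : ℂ)) * Kmat A W := by
  ext x y
  rw [Matrix.sub_apply, Matrix.mul_diagonal, Matrix.diagonal_mul, Bm, Matrix.of_apply, Kmat,
    Matrix.add_apply, Matrix.map_apply]
  by_cases h : x = y
  · subst h
    rw [sub_self]
    push_cast
    ring
  · rw [Matrix.diagonal_apply_ne _ h]
    push_cast
    ring

/-- `G B G = [a, G]` -/
theorem Gr_Bm_Gr (hA : A.IsSymm) (hW : ∀ x, (W x).im < 0) :
    Gr A W * Bm A a * Gr A W = Matrix.diagonal (fun x => ((a x : ℝ) : ℂ)) * Gr A W -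
      Gr A W * Matrix.diagonal (fun x => ((a x : ℝ) : ℂ)) := by
  rw [Bm_eq (W := W), Matrix.mul_sub, Matrix.sub_mul]
  have h1 : Gr A W * (Kmat A W * Matrix.diagonal (fun x => ((a x : ℝ) : ℂ))) * Gr A W =
      Matrix.diagonal (fun x => ((a x : ℝ) : ℂ)) * Gr A W := by
    rw [← Matrix.mul_assoc, Gr_mul_Kmat hA hW, Matrix.one_mul]
  have h2 : Gr A W * (Matrix.diagonal (fun x => ((a x : ℝ) : ℂ)) * Kmat A W) * Gr A W =
      Gr A W * Matrix.diagonal (fun x => ((a x : ℝ) : ℂ)) := by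
    rw [Matrix.mul_assoc, Matrix.mul_assoc, Kmat_mul_Gr hA hW, Matrix.mul_one]
  rw [h1, h2]

/-- `T = G^* E a G + (i/2)(a G - G^* a)` -/
theorem Tm_eq (hA : A.IsSymm) (hW : ∀ x, (W x).im < 0) :
    Tm A W a = (I / 2) • (Matrix.diagonal (fun x => ((a x : ℝ) : ℂ)) * Gr A W -
        (Gr A W)ᴴ * Matrix.diagonal (fun x => ((a x : ℝ) : ℂ))) +
      (Gr A W)ᴴ * Matrix.diagonal (fun x => ((-(W x).im : ℝ) : ℂ)) *
        Matrix.diagonal (fun x => ((a x : ℝ) : ℂ)) * Gr A W := by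
  have h1 : (Gr A W)ᴴ * (Kmat A W * Matrix.diagonal (fun x => ((a x : ℝ) : ℂ))) * Gr A W =
      Matrix.diagonal (fun x => ((a x : ℝ) : ℂ)) * Gr A W -
        (2 * I) • ((Gr A W)ᴴ * Matrix.diagonal (fun x => ((-(W x).im : ℝ) : ℂ)) *
        Matrix.diagonal (fun x => ((a x : ℝ) : ℂ)) * Gr A W) := by
    rw [← Matrix.mul_assoc, GrH_mul_Kmat hA hW, Matrix.sub_mul, Matrix.sub_mul, Matrix.one_mul,
      Matrix.smul_mul, Matrix.smul_mul]
  have h2 : (Gr A W)ᴴ * (Matrix.diagonal (fun x => ((a x : ℝ) : ℂ)) * Kmat A W) * Gr A W =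
      (Gr A W)ᴴ * Matrix.diagonal (fun x => ((a x : ℝ) : ℂ)) := by
    rw [Matrix.mul_assoc, Matrix.mul_assoc, Kmat_mul_Gr hA hW, Matrix.mul_one]
  rw [Tm, Bm_eq (W := W), Matrix.mul_sub, Matrix.sub_mul, h1, h2]
  ext x y
  simp only [Matrix.smul_apply, Matrix.sub_apply, Matrix.add_apply, smul_eq_mul]
  have hI : I * I = -1 := Complex.I_mul_I
  linear_combination
    (-(((Gr A W)ᴴ * Matrix.diagonal (fun x => ((-(W x).im : ℝ) : ℂ)) *
        Matrix.diagonal (fun x => ((a x : ℝ) : ℂ)) * Gr A W) x y)) * hI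

theorem Tm_apply (hA : A.IsSymm) (hW : ∀ x, (W x).im < 0) (z w : ι) :
    Tm A W a z w = (I / 2) * (a z * Gr A W z w - conj (Gr A W z w) * a w) +
      ∑ y, ((-(W y).im : ℝ) : ℂ) * (conj (Gr A W z y) * a y * Gr A W y w) := by
  rw [Tm_eq hA hW, Matrix.add_apply, Matrix.smul_apply, Matrix.sub_apply, Matrix.diagonal_mul,
    Matrix.mul_diagonal, GrH_apply hA, smul_eq_mul, Matrix.mul_apply]
  congr 1
  refine Finset.sum_congr rfl fun y _ => ?_
  rw [Matrix.mul_diagonal, Matrix.mul_diagonal, GrH_apply hA]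
  ring

theorem Tm_conjTranspose (hA : A.IsSymm) : (Tm A W a)ᴴ = Tm A W a := by
  rw [Tm, Matrix.conjTranspose_smul, Matrix.conjTranspose_mul, Matrix.conjTranspose_mul,
    Matrix.conjTranspose_conjTranspose, Bm_conjTranspose hA, Matrix.neg_mul, Matrix.mul_neg,
    ← Matrix.mul_assoc]
  have h : star (I / 2 : ℂ) = -(I / 2) := by
    simp [Complex.conj_I]
    ring
  rw [h, smul_neg, neg_smul, neg_neg]

theorem Tm_conj (hA : A.IsSymm) (z w : ι) : conj (Tm A W a z w) = Tm A W a w z := by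
  have h := congrFun (congrFun (Tm_conjTranspose (A := A) (W := W) (a := a) hA) w) z
  rw [Matrix.conjTranspose_apply] at h
  exact h

/-- `T_zz = m_z mu_z` -/
theorem Tm_self (hA : A.IsSymm) (hW : ∀ x, (W x).im < 0) (z : ι) :
    Tm A W a z z = ((mm A W z * muf A W a z : ℝ) : ℂ) := by
  rw [Tm_apply hA hW, mm_mul_muf hA hW]
  have h1 : (I / 2) * (a z * Gr A W z z - conj (Gr A W z z) * a z) =
      -((a z * mm A W z : ℝ) : ℂ) := by
    have h2 : Gr A W z z - conj (Gr A W z z) = (2 * I) * ((mm A W z : ℝ) : ℂ) := by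
      rw [Complex.sub_conj, mm]
      push_cast
      ring
    have h3 : (a z : ℂ) * Gr A W z z - conj (Gr A W z z) * a z =
        (a z : ℂ) * (Gr A W z z - conj (Gr A W z z)) := by ring
    rw [h3, h2]
    push_cast
    linear_combination ((a z : ℂ) * (mm A W z : ℂ)) * Complex.I_mul_I
  have h4 : ∀ y, conj (Gr A W z y) * a y * Gr A W y z = ((KK A W z y * a y : ℝ) : ℂ) := by
    intro y
    rw [Gr_symm hA y z, KK]
    have h5 : conj (Gr A W z y) * Gr A W z y = ((‖Gr A W z y‖ ^ 2 : ℝ) : ℂ) := by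
      rw [← Complex.normSq_eq_norm_sq, Complex.normSq_eq_conj_mul_self]
    push_cast
    push_cast at h5
    linear_combination (a y : ℂ) * h5
  rw [h1, Finset.sum_congr rfl fun y _ => by rw [h4 y], mm_eq hA hW]
  push_cast
  simp only [mul_sub, Finset.sum_sub_distrib, Finset.mul_sum]
  have h6 : ∑ y, (-((W y).im : ℂ)) * (KK A W z y : ℂ) * (a z : ℂ) =
      ∑ y, (a z : ℂ) * ((-((W y).im : ℂ)) * (KK A W z y : ℂ)) :=
    Finset.sum_congr rfl fun y _ => by ring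
  have h7 : ∑ y, (-((W y).im : ℂ)) * (KK A W z y : ℂ) * (a y : ℂ) =
      ∑ y, (-((W y).im : ℂ)) * ((KK A W z y : ℂ) * (a y : ℂ)) :=
    Finset.sum_congr rfl fun y _ => by ring
  rw [h6, h7]
  ring

end P365L
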