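import Vale.Agent.P365.L1.Alg

/-!
# P365, LOC-1: energy identity and one-site update of `T`.
-/

set_option linter.all false

namespace P365L

open Matrix Complex
open scoped ComplexConjugate

variable {ι : Type*} [Fintype ι] [DecidableEq ι]
variable {A : Matrix ι ι ℝ} {W : ι → ℂ} {a : ι → ℝ}

/-- the diagonal matrix `E = diag (-Im W)` -/
noncomputable def Ed (W : ι → ℂ) : Matrix ι ι ℂ :=
  Matrix.diagonal (fun x => ((-(W x).im : ℝ) : ℂ))

/-- the other form of Ward's identity: `G - G^* = 2 i G E G^*` -/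
theorem Ward' (hA : A.IsSymm) (hW : ∀ x, (W x).im < 0) :
    Gr A W - (Gr A W)ᴴ = (2 * I) • (Gr A W * Ed W * (Gr A W)ᴴ) := by
  have h := congrArg Matrix.transpose (Ward hA hW)
  rw [Matrix.transpose_sub, Matrix.transpose_smul, Matrix.transpose_mul, Matrix.transpose_mul,
    Matrix.diagonal_transpose, Gr_transpose hA] at h
  have h1 : ((Gr A W)ᴴ)ᵀ = (Gr A W)ᴴ := by
    ext x y
    rw [Matrix.transpose_apply, GrH_apply hA, GrH_apply hA, Gr_symm hA]
  rw [h1] at h
  rw [h, Ed, ← Matrix.mul_assoc]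

theorem GEG_comm (hA : A.IsSymm) (hW : ∀ x, (W x).im < 0) :
    Gr A W * Ed W * (Gr A W)ᴴ = (Gr A W)ᴴ * Ed W * Gr A W := by
  have h := (Ward' hA hW).symm.trans (Ward hA hW)
  have h3 : (2 * I : ℂ) ≠ 0 := by simp
  exact smul_right_injective _ h3 h

/-- energy identity: `sum e_z e_w |T_zw|^2 = (1/4) sum e_z e_w K_zw (a_z - a_w)^2` -/
theorem energy_identity (hA : A.IsSymm) (hW : ∀ x, (W x).im < 0) :
    ∑ z, ∑ w, (-(W z).im) * (-(W w).im) * ‖Tm A W a z w‖ ^ 2 =
      (1 / 4) * ∑ z, ∑ w, (-(W z).im) * (-(W w).im) * KK A W z w * (a z - a w) ^ 2 := by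
  set G := Gr A W with hG
  set B := Bm A a with hB
  set E := Ed W with hE
  -- left side as a trace
  have hL : ((∑ z, ∑ w, (-(W z).im) * (-(W w).im) * ‖Tm A W a z w‖ ^ 2 : ℝ) : ℂ) =
      (E * Tm A W a * E * Tm A W a).trace := by
    rw [Matrix.trace]
    push_cast
    refine Finset.sum_congr rfl fun z _ => ?_
    rw [Matrix.diag_apply, Matrix.mul_apply]
    refine Finset.sum_congr rfl fun w _ => ?_
    rw [hE, Ed, Matrix.mul_diagonal, Matrix.diagonal_mul, ← Tm_conj hA z w]
    have h5 : Tm A W a z w * conj (Tm A W a z w) = ((‖Tm A W a z w‖ ^ 2 : ℝ) : ℂ) := by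
      rw [← Complex.normSq_eq_norm_sq, Complex.mul_conj]
    push_cast at h5 ⊢
    linear_combination (-(((W z).im : ℂ) * ((W w).im : ℂ))) * h5
  have hR : ((∑ z, ∑ w, (-(W z).im) * (-(W w).im) * KK A W z w * (a z - a w) ^ 2 : ℝ) : ℂ) =
      (E * (G * B * G) * E * (G * B * G)ᴴ).trace := by
    rw [Matrix.trace]
    push_cast
    refine Finset.sum_congr rfl fun z _ => ?_
    rw [Matrix.diag_apply, Matrix.mul_apply]
    refine Finset.sum_congr rfl fun w _ => ?_
    rw [hE, Ed, Matrix.mul_diagonal, Matrix.diagonal_mul, Matrix.conjTranspose_apply, hG, hB,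
      Gr_Bm_Gr hA hW, Matrix.sub_apply, Matrix.diagonal_mul, Matrix.mul_diagonal]
    have h5 : Gr A W z w * conj (Gr A W z w) = ((KK A W z w : ℝ) : ℂ) := by
      rw [KK, ← Complex.normSq_eq_norm_sq, Complex.mul_conj]
    simp only [RCLike.star_def, map_sub, map_mul, Complex.conj_ofReal]
    push_cast at h5 ⊢
    linear_combination (-(((W z).im : ℂ) * ((W w).im : ℂ) * ((a z : ℂ) - (a w : ℂ)) ^ 2)) * h5
  -- both traces
  have hT : (E * Tm A W a * E * Tm A W a).trace =
      -(1 / 4) * ((G * E * Gᴴ) * B * (G * E * Gᴴ) * B).trace := by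
    have h1 : E * Tm A W a * E * Tm A W a =
        (-(1 / 4) : ℂ) • (E * Gᴴ * B * (G * E * Gᴴ) * B * G) := by
      have hI : (I / 2 : ℂ) * (I / 2) = -(1 / 4) := by
        linear_combination (1 / 4) * Complex.I_mul_I
      rw [Tm, ← hG, ← hB, Matrix.mul_smul, Matrix.mul_smul, Matrix.smul_mul, Matrix.smul_mul,
        smul_smul, hI]
      simp only [Matrix.mul_assoc]
    have h2 : (E * Gᴴ * B * (G * E * Gᴴ) * B * G).trace =
        ((G * E * Gᴴ) * B * (G * E * Gᴴ) * B).trace := by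
      rw [Matrix.trace_mul_comm (E * Gᴴ * B * (G * E * Gᴴ) * B) G]
      simp only [Matrix.mul_assoc]
    rw [h1, Matrix.trace_smul, smul_eq_mul, h2]
  have hT2 : (E * (G * B * G) * E * (G * B * G)ᴴ).trace =
      -((G * E * Gᴴ) * B * (G * E * Gᴴ) * B).trace := by
    have h1 : (G * B * G)ᴴ = -(Gᴴ * B * Gᴴ) := by
      rw [Matrix.conjTranspose_mul, Matrix.conjTranspose_mul, hB, Bm_conjTranspose hA,
        Matrix.neg_mul, Matrix.mul_neg, Matrix.mul_assoc]
    have h2 : E * (G * B * G) * E * (Gᴴ * B * Gᴴ) =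
        (E * G * B * (G * E * Gᴴ) * B) * Gᴴ := by
      simp only [Matrix.mul_assoc]
    have h3 : Gᴴ * (E * G * B * (G * E * Gᴴ) * B) =
        (Gᴴ * E * G) * B * (G * E * Gᴴ) * B := by
      simp only [Matrix.mul_assoc]
    have h4 : Gᴴ * E * G = G * E * Gᴴ := by
      rw [hG, hE, GEG_comm hA hW]
    rw [h1, Matrix.mul_neg, Matrix.trace_neg, h2, Matrix.trace_mul_comm, h3, h4]
  apply Complex.ofReal_injective
  rw [hL, hT]
  push_cast at hR ⊢
  rw [hR, hT2]
  ring

/-! ### one-site update -/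

/-- `θ = t/(1+t g)` -/
noncomputable def th (g t : ℂ) : ℂ := t / (1 + t * g)

theorem upd_neg (hW : ∀ x, (W x).im < 0) (y : ι) (t : ℂ) (ht : (W y + t).im < 0) (x : ι) :
    (Function.update W y (W y + t) x).im < 0 := by
  by_cases hx : x = y
  · subst hx
    rwa [Function.update_self]
  · rw [Function.update_of_ne hx]
    exact hW x

theorem one_add_ne (hA : A.IsSymm) (hW : ∀ x, (W x).im < 0) (y : ι) (t : ℂ)
    (ht : (W y + t).im < 0) : 1 + t * Gr A W y y ≠ 0 :=
  (Gr_update hA hW y t ht).1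

theorem Gr_upd (hA : A.IsSymm) (hW : ∀ x, (W x).im < 0) (y : ι) (t : ℂ)
    (ht : (W y + t).im < 0) (z w : ι) :
    Gr A (Function.update W y (W y + t)) z w =
      Gr A W z w - th (Gr A W y y) t * Gr A W z y * Gr A W y w := by
  rw [(Gr_update hA hW y t ht).2 z w, th]
  ring

theorem mm_upd (hA : A.IsSymm) (hW : ∀ x, (W x).im < 0) (y : ι) (t : ℂ)
    (ht : (W y + t).im < 0) (z : ι) :
    mm A (Function.update W y (W y + t)) z =
      mm A W z - (th (Gr A W y y) t * Gr A W z y ^ 2).im := by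
  rw [mm, Gr_upd hA hW y t ht, Complex.sub_im, mm, Gr_symm hA y z]
  congr 2
  ring

/-- update of `T`, general (complex) `t` -/
theorem Tm_upd (hA : A.IsSymm) (hW : ∀ x, (W x).im < 0) (y : ι) (t : ℂ)
    (ht : (W y + t).im < 0) (z w : ι) :
    Tm A (Function.update W y (W y + t)) a z w =
      Tm A W a z w - th (Gr A W y y) t * Tm A W a z y * Gr A W y w -
        conj (th (Gr A W y y) t) * conj (Gr A W z y) * Tm A W a y w +
        (‖th (Gr A W y y) t‖ ^ 2 : ℝ) * conj (Gr A W z y) * Tm A W a y y * Gr A W y w := by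
  set θ := th (Gr A W y y) t with hθ
  have hT : ∀ (V : ι → ℂ) (z w : ι), Tm A V a z w =
      (I / 2) * ∑ p, ∑ q, conj (Gr A V z p) * Bm A a p q * Gr A V q w := by
    intro V z w
    rw [Tm, Matrix.smul_apply, smul_eq_mul, Matrix.mul_apply]
    congr 1
    rw [Finset.sum_comm]
    refine Finset.sum_congr rfl fun q _ => ?_
    rw [Matrix.mul_apply, Finset.sum_mul]
    refine Finset.sum_congr rfl fun p _ => ?_
    rw [GrH_apply hA]
  have h1 : ∀ p q, conj (Gr A (Function.update W y (W y + t)) z p) * Bm A a p q *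
      Gr A (Function.update W y (W y + t)) q w =
      conj (Gr A W z p) * Bm A a p q * Gr A W q w -
        θ * (conj (Gr A W z p) * Bm A a p q * Gr A W q y) * Gr A W y w -
        conj θ * conj (Gr A W z y) * (conj (Gr A W y p) * Bm A a p q * Gr A W q w) +
        (θ * conj θ) * conj (Gr A W z y) * (conj (Gr A W y p) * Bm A a p q * Gr A W q y) *
          Gr A W y w := by
    intro p q
    rw [Gr_upd hA hW y t ht z p, Gr_upd hA hW y t ht q w]
    simp only [map_sub, map_mul]
    ring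
  have h2 : (θ * conj θ) = ((‖θ‖ ^ 2 : ℝ) : ℂ) := by
    rw [← Complex.normSq_eq_norm_sq, Complex.mul_conj]
  rw [hT (Function.update W y (W y + t)) z w, hT W z w, hT W z y, hT W y w, hT W y y, ← h2]
  simp only [h1, Finset.sum_add_distrib, Finset.sum_sub_distrib, ← Finset.mul_sum,
    ← Finset.sum_mul]
  ring

/-- on the circle (`t` real): `|θ|² m = - Im θ` -/
theorem th_circle {g : ℂ} (hg : g ≠ 0) (t : ℝ) (h : 1 + (t : ℂ) * g ≠ 0) :
    ‖th g t‖ ^ 2 * g.im = -(th g t).im := by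
  have hn : 0 < Complex.normSq (1 + (t : ℂ) * g) := Complex.normSq_pos.2 h
  rw [← Complex.normSq_eq_norm_sq, th, map_div₀, Complex.div_im, Complex.normSq_ofReal]
  simp only [Complex.ofReal_im, Complex.ofReal_re, zero_mul, Complex.add_im, Complex.one_im,
    Complex.mul_im, zero_add, zero_div, zero_sub, add_zero]
  field_simp

/-- `Q_zy = T_zy - (i/2) mu_y conj(G_zy)` -/
noncomputable def Qm (A : Matrix ι ι ℝ) (W : ι → ℂ) (a : ι → ℝ) (z y : ι) : ℂ :=
  Tm A W a z y - (I / 2) * (muf A W a y) * conj (Gr A W z y)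

/-- update of `T` for real `t` (on the circle): harmonic in `θ` -/
theorem Tm_upd_real (hA : A.IsSymm) (hW : ∀ x, (W x).im < 0) (y : ι) (t : ℝ) (z w : ι) :
    Tm A (Function.update W y (W y + t)) a z w =
      Tm A W a z w - th (Gr A W y y) t * Qm A W a z y * Gr A W y w -
        conj (th (Gr A W y y) t) * conj (Gr A W z y) * conj (Qm A W a w y) := by
  have ht : (W y + (t : ℂ)).im < 0 := by
    rw [Complex.add_im, Complex.ofReal_im, add_zero]
    exact hW y
  rw [Tm_upd hA hW y t ht]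
  set θ := th (Gr A W y y) (t : ℂ) with hθ
  have h1 := th_circle (Gr_self_ne_zero hA hW y) t (one_add_ne hA hW y t ht)
  have hc : ((‖θ‖ ^ 2 : ℝ) : ℂ) * Tm A W a y y = (muf A W a y : ℂ) * (I / 2) * (θ - conj θ) := by
    rw [Tm_self hA hW, Complex.sub_conj, ← hθ] at *
    have h2 : ((‖θ‖ ^ 2 : ℝ) : ℂ) * (mm A W y : ℂ) = -((θ.im : ℝ) : ℂ) := by
      rw [← Complex.ofReal_mul, ← Complex.ofReal_neg]
      exact congrArg _ h1
    push_cast at h2 ⊢
    linear_combination (muf A W a y : ℂ) * h2 - (muf A W a y : ℂ) * (θ.im : ℂ) * Complex.I_mul_I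
  have hq : conj (Qm A W a w y) = Tm A W a y w + (I / 2) * (muf A W a y) * Gr A W y w := by
    rw [Qm, map_sub, Tm_conj hA, map_mul, map_mul, Complex.conj_ofReal, Complex.conj_conj,
      Gr_symm hA w y]
    have : conj (I / 2) = -(I / 2) := by
      rw [map_div₀, Complex.conj_I, map_ofNat]
      ring
    rw [this]
    ring
  rw [hq, Qm]
  linear_combination (conj (Gr A W z y) * Gr A W y w) * hc

/-- `Rt_zy = T_zy + (i/2)(mu_z G_zy - mu_y conj(G_zy))` -/
noncomputable def Rt (A : Matrix ι ι ℝ) (W : ι → ℂ) (a : ι → ℝ) (z y : ι) : ℂ :=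
  Tm A W a z y + (I / 2) * (muf A W a z * Gr A W z y - muf A W a y * conj (Gr A W z y))

theorem mm_upd_real (hA : A.IsSymm) (hW : ∀ x, (W x).im < 0) (y : ι) (t : ℝ) (z : ι) :
    mm A (Function.update W y (W y + t)) z =
      mm A W z - (th (Gr A W y y) t * Gr A W z y ^ 2).im := by
  have ht : (W y + (t : ℂ)).im < 0 := by
    rw [Complex.add_im, Complex.ofReal_im, add_zero]
    exact hW y
  exact mm_upd hA hW y t ht z

/-- `T'_zz = mu_z m'_z - 2 Re (θ G_zy Rt_zy)` for real `t` -/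
theorem Tm_self_upd_real (hA : A.IsSymm) (hW : ∀ x, (W x).im < 0) (y : ι) (t : ℝ) (z : ι) :
    (Tm A (Function.update W y (W y + t)) a z z).re =
      muf A W a z * mm A (Function.update W y (W y + t)) z -
        2 * (th (Gr A W y y) t * (Gr A W z y * Rt A W a z y)).re := by
  rw [Tm_upd_real hA hW y t z z, mm_upd_real hA hW y t z, Tm_self hA hW]
  set θ := th (Gr A W y y) (t : ℂ) with hθ
  have h1 : (conj θ * conj (Gr A W z y) * conj (Qm A W a z y)).re =
      (θ * Qm A W a z y * Gr A W y z).re := by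
    have : conj θ * conj (Gr A W z y) * conj (Qm A W a z y) =
        conj (θ * Qm A W a z y * Gr A W y z) := by
      simp only [map_mul]
      rw [Gr_symm hA y z]
      ring
    rw [this, Complex.conj_re]
  rw [Complex.sub_re, Complex.sub_re, h1, Complex.ofReal_re, Rt, Qm, Gr_symm hA y z]
  simp only [Complex.mul_re, Complex.sub_re, Complex.add_re, Complex.mul_im, Complex.sub_im,
    Complex.add_im, Complex.conj_re, Complex.conj_im, Complex.ofReal_re, Complex.ofReal_im, pow_two]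
  have hI1 : (I / 2 : ℂ).re = 0 := by simp
  have hI2 : (I / 2 : ℂ).im = 1 / 2 := by simp
  rw [hI1, hI2]
  ring

end P365L
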