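import Vale.Agent.P365.L1.Near

/-!
# P365, NEAR step: the pathwise inequality for one column.
-/

set_option linter.all false

namespace P365L

open Matrix Complex
open scoped ComplexConjugate

variable {ι : Type*} [Fintype ι] [DecidableEq ι]
variable {A : Matrix ι ι ℝ} {W : ι → ℂ} {a : ι → ℝ} {ε : ℝ}

theorem amgm_sq {p q r : ℝ} (hp : 0 ≤ p) (hq : 0 ≤ q) (h : r ^ 2 ≤ 4 * p * q) : r ≤ p + q := by
  have h1 : r ^ 2 ≤ (p + q) ^ 2 := by nlinarith [sq_nonneg (p - q)]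
  exact (abs_le_of_sq_le_sq' h1 (add_nonneg hp hq)).2

/-- `λ^S_zw = ∑_{b ∈ S, b ≠ z,w} e_b m_b κ_zb κ_bw` -/
noncomputable def lamS (A : Matrix ι ι ℝ) (W : ι → ℂ) (S : Finset ι) (z w : ι) : ℝ :=
  ∑ y ∈ S.filter (fun y => y ≠ z ∧ y ≠ w),
    (-(W y).im) * mm A W y * (kap A W z y * kap A W y w)

theorem lamS_univ (z w : ι) : lamS A W Finset.univ z w = lam A W z w := rfl

theorem lamS_nonneg (hA : A.IsSymm) (hW : ∀ x, (W x).im < 0) (S : Finset ι) (z w : ι) :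
    0 ≤ lamS A W S z w :=
  Finset.sum_nonneg fun y _ => mul_nonneg (mul_nonneg (by linarith [hW y]) (mm_pos hA hW y).le)
    (mul_nonneg (kap_nonneg hA hW z y) (kap_nonneg hA hW y w))

theorem lamS_le_lam (hA : A.IsSymm) (hW : ∀ x, (W x).im < 0) (S : Finset ι) (z w : ι) :
    lamS A W S z w ≤ lam A W z w :=
  Finset.sum_le_sum_of_subset_of_nonneg
    (Finset.filter_subset_filter _ (Finset.subset_univ S)) fun y _ _ =>
      mul_nonneg (mul_nonneg (by linarith [hW y]) (mm_pos hA hW y).le)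
        (mul_nonneg (kap_nonneg hA hW z y) (kap_nonneg hA hW y w))

theorem mm_sq_le_KK (x : ι) : mm A W x ^ 2 ≤ KK A W x x := by
  rw [mm, KK]
  have := Complex.abs_im_le_norm (Gr A W x x)
  have h0 := abs_nonneg (Gr A W x x).im
  calc (Gr A W x x).im ^ 2 = |(Gr A W x x).im| ^ 2 := (sq_abs _).symm
    _ ≤ _ := pow_le_pow_left₀ h0 this 2

theorem e_mul_mm_le (hA : A.IsSymm) (hW : ∀ x, (W x).im < 0) (x : ι) :
    (-(W x).im) * mm A W x ≤ 1 := by
  have h1 := e_mul_KK_le hA hW x x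
  have h2 := mm_sq_le_KK (A := A) (W := W) x
  have h3 := mm_pos hA hW x
  have h4 : 0 < -(W x).im := by linarith [hW x]
  have h5 : (-(W x).im) * mm A W x ^ 2 ≤ mm A W x :=
    (mul_le_mul_of_nonneg_left h2 h4.le).trans h1
  have h6 : (-(W x).im * mm A W x) * mm A W x ≤ 1 * mm A W x := by
    rw [one_mul]
    calc _ = (-(W x).im) * mm A W x ^ 2 := by ring
      _ ≤ _ := h5
  exact le_of_mul_le_mul_right h6 h3

/-- `K = κ (m m + K)` -/
theorem KK_eq_kap (hA : A.IsSymm) (hW : ∀ x, (W x).im < 0) (z w : ι) :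
    KK A W z w = kap A W z w * (mm A W z * mm A W w + KK A W z w) := by
  rw [kap, div_mul_cancel₀]
  exact (kap_den_pos hA hW z w).ne'

theorem KK_le_of_kap (hA : A.IsSymm) (hW : ∀ x, (W x).im < 0) (z w : ι)
    (h : kap A W z w ≤ 1 / 2) : KK A W z w ≤ 2 * kap A W z w * (mm A W z * mm A W w) := by
  have h1 := KK_eq_kap hA hW z w
  have h2 := KK_nonneg (A := A) (W := W) z w
  nlinarith

/-- sum over a finite set of `e K` is at most `m` -/
theorem sum_e_KK_le (hA : A.IsSymm) (hε : 0 < ε) (hW : ∀ x, (W x).im = -ε) (S : Finset ι)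
    (w : ι) : ε * ∑ z ∈ S, KK A W z w ≤ mm A W w := by
  have hn := hom_neg hε hW
  rw [mm_eq hA hn, Finset.mul_sum]
  calc ∑ z ∈ S, ε * KK A W z w ≤ ∑ z, ε * KK A W z w :=
        Finset.sum_le_sum_of_subset_of_nonneg (Finset.subset_univ S) fun z _ _ =>
          mul_nonneg hε.le (KK_nonneg z w)
    _ = ∑ y, -(W y).im * KK A W w y := by
        refine Finset.sum_congr rfl fun z _ => ?_
        rw [hW z, neg_neg, KK_symm hA z w]

section Cols

/-- the cut-off function `h = (a - a_w) 1_S` -/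
noncomputable def hcut (a : ι → ℝ) (S : Finset ι) (w z : ι) : ℝ := if z ∈ S then a z - a w else 0

omit [Fintype ι] in
theorem hcut_self (S : Finset ι) (w : ι) : hcut a S w w = 0 := by
  rw [hcut]
  split_ifs
  · exact sub_self _
  · rfl

omit [Fintype ι] in
theorem hcut_abs_le {S : Finset ι} {w : ι} {H : ℝ} (hH : 0 ≤ H) (ha : ∀ z ∈ S, |a z - a w| ≤ H)
    (z : ι) : |hcut a S w z| ≤ H := by
  rw [hcut]
  split_ifs with h
  · exact ha z h
  · rwa [abs_zero]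

/-- the sum part of `T^near` -/
noncomputable def xs (A : Matrix ι ι ℝ) (W : ι → ℂ) (ε : ℝ) (S : Finset ι) (z w : ι) : ℝ :=
  ∑ b ∈ S, ε * (‖Gr A W z b‖ * ‖Gr A W b w‖)

theorem Tn_sum_norm_le (hε : 0 < ε) (hW : ∀ x, (W x).im = -ε) (S T : Finset ι) {w : ι} {H : ℝ}
    (hH : 0 ≤ H) (ha : ∀ z ∈ S, |a z - a w| ≤ H) (z : ι) (hT : T ⊆ Finset.univ)
    (hz : ∀ b, b ∉ T → hcut a S w b = 0) :
    ‖∑ b, ((-(W b).im : ℝ) : ℂ) * (conj (Gr A W z b) * (hcut a S w b * Gr A W b w))‖ ≤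
      H * xs A W ε T z w := by
  have h1 : ∑ b, ((-(W b).im : ℝ) : ℂ) * (conj (Gr A W z b) * (hcut a S w b * Gr A W b w)) =
      ∑ b ∈ T, ((-(W b).im : ℝ) : ℂ) * (conj (Gr A W z b) * (hcut a S w b * Gr A W b w)) := by
    symm
    refine Finset.sum_subset hT fun b _ hb => ?_
    rw [hz b hb]
    simp
  rw [h1, xs, Finset.mul_sum]
  refine (norm_sum_le _ _).trans (Finset.sum_le_sum fun b _ => ?_)
  rw [hW b, neg_neg, norm_mul, norm_mul, norm_mul, Complex.norm_real, Complex.norm_real,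
    Real.norm_eq_abs, Real.norm_eq_abs, abs_of_pos hε, RCLike.norm_conj]
  have h2 := hcut_abs_le (a := a) hH ha b
  have h3 : 0 ≤ ε * (‖Gr A W z b‖ * ‖Gr A W b w‖) := by positivity
  calc ε * (‖Gr A W z b‖ * (|hcut a S w b| * ‖Gr A W b w‖)) =
        |hcut a S w b| * (ε * (‖Gr A W z b‖ * ‖Gr A W b w‖)) := by ring
    _ ≤ H * (ε * (‖Gr A W z b‖ * ‖Gr A W b w‖)) := mul_le_mul_of_nonneg_right h2 h3

/-- Cauchy–Schwarz with weights `m_b κ_zb κ_bw` -/
theorem xs_sq_le (hA : A.IsSymm) (hε : 0 < ε) (hW : ∀ x, (W x).im = -ε) (S : Finset ι)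
    (z w : ι) :
    xs A W ε (S.filter (fun y => y ≠ z ∧ y ≠ w)) z w ^ 2 ≤ lamS A W S z w *
      (mm A W z * mm A W w * (ε * ∑ b ∈ S, mm A W b + 2) +
        ε * ∑ b ∈ S, KK A W z b * KK A W b w / mm A W b) := by
  have hn := hom_neg hε hW
  set F := S.filter (fun y => y ≠ z ∧ y ≠ w) with hF
  have hFS : F ⊆ S := Finset.filter_subset _ _
  set f : ι → ℝ := fun b => ε * mm A W b * (kap A W z b * kap A W b w) with hf
  set g : ι → ℝ := fun b => ε * ((mm A W z * mm A W b + KK A W z b) *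
    (mm A W b * mm A W w + KK A W b w) / mm A W b) with hg
  have hmz := mm_pos hA hn z
  have hmw := mm_pos hA hn w
  have hf0 : ∀ b ∈ F, 0 ≤ f b := fun b _ => by
    have := mm_pos hA hn b
    have := kap_nonneg hA hn z b
    have := kap_nonneg hA hn b w
    simp only [hf]
    positivity
  have hg0 : ∀ b ∈ F, 0 ≤ g b := fun b _ => by
    have := mm_pos hA hn b
    have := KK_nonneg (A := A) (W := W) z b
    have := KK_nonneg (A := A) (W := W) b w
    simp only [hg]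
    positivity
  have hfg : ∀ b ∈ F, (ε * (‖Gr A W z b‖ * ‖Gr A W b w‖)) ^ 2 = f b * g b := by
    intro b _
    have hb := (mm_pos hA hn b).ne'
    have e1 := KK_eq_kap hA hn z b
    have e2 := KK_eq_kap hA hn b w
    have e3 : (ε * (‖Gr A W z b‖ * ‖Gr A W b w‖)) ^ 2 = ε ^ 2 * (KK A W z b * KK A W b w) := by
      rw [KK, KK]
      ring
    have e4 : f b * g b = ε ^ 2 * ((kap A W z b * (mm A W z * mm A W b + KK A W z b)) *
        (kap A W b w * (mm A W b * mm A W w + KK A W b w))) := by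
      simp only [hf, hg]
      field_simp
    rw [e3, e4, ← e1, ← e2]
  have hCS := Finset.sum_sq_le_sum_mul_sum_of_sq_eq_mul F hf0 hg0 hfg
  have hlam : ∑ b ∈ F, f b = lamS A W S z w := by
    rw [lamS]
    refine Finset.sum_congr rfl fun b _ => ?_
    simp only [hf]
    rw [hW b, neg_neg]
  have hgs : ∑ b ∈ F, g b ≤ mm A W z * mm A W w * (ε * ∑ b ∈ S, mm A W b + 2) +
        ε * ∑ b ∈ S, KK A W z b * KK A W b w / mm A W b := by
    have k1 : ∀ b, g b = mm A W z * mm A W w * (ε * mm A W b) + mm A W z * (ε * KK A W b w) +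
        mm A W w * (ε * KK A W b z) + ε * (KK A W z b * KK A W b w / mm A W b) := by
      intro b
      have hb := (mm_pos hA hn b).ne'
      simp only [hg]
      rw [KK_symm hA b z]
      field_simp
      ring
    have k2 : ∑ b ∈ F, g b ≤ ∑ b ∈ S, g b := by
      refine Finset.sum_le_sum_of_subset_of_nonneg hFS fun b _ _ => ?_
      have := mm_pos hA hn b
      have := KK_nonneg (A := A) (W := W) z b
      have := KK_nonneg (A := A) (W := W) b w
      simp only [hg]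
      positivity
    refine k2.trans ?_
    rw [Finset.sum_congr rfl fun b _ => k1 b, Finset.sum_add_distrib, Finset.sum_add_distrib,
      Finset.sum_add_distrib, ← Finset.mul_sum, ← Finset.mul_sum, ← Finset.mul_sum,
      ← Finset.mul_sum, ← Finset.mul_sum, ← Finset.mul_sum, ← Finset.mul_sum]
    have k3 := mul_le_mul_of_nonneg_left (sum_e_KK_le hA hε hW S w) hmz.le
    have k4 := mul_le_mul_of_nonneg_left (sum_e_KK_le hA hε hW S z) hmw.le
    nlinarith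
  have hl0 := lamS_nonneg hA hn S z w
  calc xs A W ε F z w ^ 2 ≤ (∑ b ∈ F, f b) * ∑ b ∈ F, g b := hCS
    _ ≤ _ := by
        rw [hlam]
        exact mul_le_mul_of_nonneg_left hgs hl0

/-- plain Cauchy–Schwarz -/
theorem xs_sq_le' (hA : A.IsSymm) (hε : 0 < ε) (hW : ∀ x, (W x).im = -ε) (S : Finset ι)
    (z w : ι) :
    xs A W ε S z w ^ 2 ≤ (ε * ∑ b ∈ S, KK A W z b) * mm A W w := by
  have h1 : xs A W ε S z w ^ 2 ≤ (∑ b ∈ S, ε * KK A W z b) * ∑ b ∈ S, ε * KK A W b w := by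
    refine Finset.sum_sq_le_sum_mul_sum_of_sq_eq_mul S
      (fun b _ => mul_nonneg hε.le (KK_nonneg _ _)) (fun b _ => mul_nonneg hε.le (KK_nonneg _ _))
      fun b _ => ?_
    rw [KK, KK]
    ring
  rw [← Finset.mul_sum, ← Finset.mul_sum] at h1
  refine h1.trans (mul_le_mul_of_nonneg_left (sum_e_KK_le hA hε hW S w) ?_)
  exact mul_nonneg hε.le (Finset.sum_nonneg fun b _ => KK_nonneg _ _)

/-! ### the three bounds of `T^near` -/

theorem Tn_self_le (hA : A.IsSymm) (hε : 0 < ε) (hW : ∀ x, (W x).im = -ε) (S : Finset ι)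
    (w : ι) :
    ‖Tn A W (hcut a S w) w w‖ ^ 2 ≤
      mm A W w * (ε * ∑ z, KK A W z w * hcut a S w z ^ 2) := by
  have hn := hom_neg hε hW
  rw [Tn, hcut_self]
  simp only [Complex.ofReal_zero, zero_mul, mul_zero, zero_add]
  have h1 : ‖∑ b, ((-(W b).im : ℝ) : ℂ) * (conj (Gr A W w b) * (hcut a S w b * Gr A W b w))‖ ≤
      ∑ b, ε * (‖Gr A W w b‖ * (|hcut a S w b| * ‖Gr A W b w‖)) := by
    refine (norm_sum_le _ _).trans (Finset.sum_le_sum fun b _ => le_of_eq ?_)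
    rw [hW b, neg_neg, norm_mul, norm_mul, norm_mul, Complex.norm_real, Complex.norm_real,
      Real.norm_eq_abs, Real.norm_eq_abs, abs_of_pos hε, RCLike.norm_conj]
  have h2 : (∑ b, ε * (‖Gr A W w b‖ * (|hcut a S w b| * ‖Gr A W b w‖))) ^ 2 ≤
      (∑ b, ε * KK A W b w) * ∑ b, ε * (KK A W b w * hcut a S w b ^ 2) := by
    refine Finset.sum_sq_le_sum_mul_sum_of_sq_eq_mul Finset.univ
      (fun b _ => mul_nonneg hε.le (KK_nonneg _ _))
      (fun b _ => mul_nonneg hε.le (mul_nonneg (KK_nonneg _ _) (sq_nonneg _))) fun b _ => ?_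
    rw [KK, Gr_symm hA w b, mul_pow, mul_pow, mul_pow, sq_abs]
    ring
  have h3 : ∑ b, ε * KK A W b w = mm A W w := by
    rw [mm_eq hA hn]
    refine Finset.sum_congr rfl fun z _ => ?_
    rw [hW z, neg_neg, KK_symm hA z w]
  rw [h3] at h2
  have h4 : ε * ∑ z, KK A W z w * hcut a S w z ^ 2 = ∑ b, ε * (KK A W b w * hcut a S w b ^ 2) :=
    Finset.mul_sum _ _ _
  rw [h4]
  exact (pow_le_pow_left₀ (norm_nonneg _) h1 2).trans h2

theorem Tn_near_le (hA : A.IsSymm) (hε : 0 < ε) (hW : ∀ x, (W x).im = -ε) (S : Finset ι)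
    {w z : ι} {H : ℝ} (hH : 0 ≤ H) (ha : ∀ z ∈ S, |a z - a w| ≤ H) :
    ‖Tn A W (hcut a S w) w z‖ ≤ 3 / 2 * H * ‖Gr A W z w‖ +
      H * xs A W ε (S.filter (fun y => y ≠ z ∧ y ≠ w)) z w := by
  have hn := hom_neg hε hW
  rw [Tn]
  set F := S.filter (fun y => y ≠ z ∧ y ≠ w) with hF
  have hzero : ∀ b, b ∉ insert z F → hcut a S w b = 0 := by
    intro b hb
    rw [Finset.mem_insert, not_or, hF, Finset.mem_filter] at hb
    rw [hcut]
    split_ifs with h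
    · by_contra h2
      refine hb.2 ⟨h, hb.1, ?_⟩
      rintro rfl
      exact h2 (sub_self _)
    · rfl
  have h1 := Tn_sum_norm_le (A := A) hε hW S (insert z F) hH ha z (Finset.subset_univ _) hzero
  have h2 : xs A W ε (insert z F) z w =
      ε * (‖Gr A W z z‖ * ‖Gr A W z w‖) + xs A W ε F z w := by
    rw [xs, xs, Finset.sum_insert]
    rw [hF, Finset.mem_filter]
    tauto
  have h3 : ε * ‖Gr A W z z‖ ≤ 1 := by
    have k1 := e_mul_KK_le hA hn z z
    have k2 := e_mul_mm_le hA hn z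
    rw [hW z, neg_neg] at k1 k2
    have k3 : (ε * ‖Gr A W z z‖) ^ 2 ≤ 1 ^ 2 := by
      rw [mul_pow]
      have : ‖Gr A W z z‖ ^ 2 = KK A W z z := rfl
      rw [this]
      nlinarith
    exact (abs_le_of_sq_le_sq' k3 zero_le_one).2
  have h4 : ε * (‖Gr A W z z‖ * ‖Gr A W z w‖) ≤ ‖Gr A W z w‖ := by
    have := mul_le_mul_of_nonneg_right h3 (norm_nonneg (Gr A W z w))
    linarith
  have h5 : ‖(I / 2) * (hcut a S w z * Gr A W z w)‖ ≤ 1 / 2 * H * ‖Gr A W z w‖ := by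
    rw [norm_mul, norm_mul, norm_div, Complex.norm_I, Complex.norm_ofNat, Complex.norm_real,
      Real.norm_eq_abs]
    have := mul_le_mul_of_nonneg_right (hcut_abs_le (a := a) hH ha z) (norm_nonneg (Gr A W z w))
    linarith
  have h6 : H * xs A W ε (insert z F) z w ≤ H * (‖Gr A W z w‖ + xs A W ε F z w) := by
    rw [h2]
    exact mul_le_mul_of_nonneg_left (by linarith) hH
  calc _ ≤ 1 / 2 * H * ‖Gr A W z w‖ + H * (‖Gr A W z w‖ + xs A W ε F z w) :=
        (norm_add_le _ _).trans (add_le_add h5 (h1.trans h6))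
    _ = _ := by ring

theorem Tn_far_le (hA : A.IsSymm) (hε : 0 < ε) (hW : ∀ x, (W x).im = -ε) (S : Finset ι)
    {w z : ι} {H : ℝ} (hH : 0 ≤ H) (ha : ∀ z ∈ S, |a z - a w| ≤ H) (hz : z ∉ S) :
    ‖Tn A W (hcut a S w) w z‖ ^ 2 ≤ H ^ 2 * (mm A W w * (ε * ∑ b ∈ S, KK A W z b)) := by
  rw [Tn]
  have h0 : hcut a S w z = 0 := by rw [hcut, if_neg hz]
  rw [h0]
  simp only [Complex.ofReal_zero, zero_mul, mul_zero, zero_add]
  have hzero : ∀ b, b ∉ S → hcut a S w b = 0 := fun b hb => by rw [hcut, if_neg hb]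
  have h1 := Tn_sum_norm_le (A := A) hε hW S S hH ha z (Finset.subset_univ _) hzero
  have h2 := xs_sq_le' hA hε hW S z w
  have h3 := pow_le_pow_left₀ (norm_nonneg _) h1 2
  refine h3.trans ?_
  rw [mul_pow]
  have := mul_le_mul_of_nonneg_left h2 (sq_nonneg H)
  linarith

/-- `Q_zw = 9 m_z m_w + 2 (m_z m_w (X_S + 2) + ε ∑_b K_zb K_bw / m_b)` -/
noncomputable def Qw (A : Matrix ι ι ℝ) (W : ι → ℂ) (ε : ℝ) (S : Finset ι) (z w : ι) : ℝ :=
  mm A W z * mm A W w * (ε * ∑ b ∈ S, mm A W b + 2) +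
    ε * ∑ b ∈ S, KK A W z b * KK A W b w / mm A W b

theorem Qw_nonneg (hA : A.IsSymm) (hε : 0 < ε) (hW : ∀ x, (W x).im = -ε) (S : Finset ι)
    (z w : ι) : 0 ≤ Qw A W ε S z w := by
  have hn := hom_neg hε hW
  have hmz := mm_pos hA hn z
  have hmw := mm_pos hA hn w
  have q1 : 0 ≤ ∑ b ∈ S, mm A W b := Finset.sum_nonneg fun b _ => (mm_pos hA hn b).le
  have q2 : 0 ≤ ∑ b ∈ S, KK A W z b * KK A W b w / mm A W b :=
    Finset.sum_nonneg fun b _ =>
      div_nonneg (mul_nonneg (KK_nonneg _ _) (KK_nonneg _ _)) (mm_pos hA hn b).le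
  rw [Qw]
  positivity

/-- the sum of `Q` -/
theorem Qw_sum (hA : A.IsSymm) (hε : 0 < ε) (hW : ∀ x, (W x).im = -ε) (S B : Finset ι)
    (w : ι) : ε * ∑ z ∈ B, Qw A W ε S z w ≤ mm A W w *
      ((ε * ∑ z ∈ B, mm A W z) * (ε * ∑ z ∈ S, mm A W z + 2) + 1) := by
  have hn := hom_neg hε hW
  have k2 : ε * ∑ z ∈ B, Qw A W ε S z w = mm A W w * ((ε * ∑ z ∈ B, mm A W z) *
      (ε * ∑ z ∈ S, mm A W z + 2)) +
      (ε * ∑ z ∈ B, ε * ∑ b ∈ S, KK A W z b * KK A W b w / mm A W b) := by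
    have : ∀ z ∈ B, Qw A W ε S z w = mm A W w * (ε * ∑ z ∈ S, mm A W z + 2) * mm A W z +
        (ε * ∑ b ∈ S, KK A W z b * KK A W b w / mm A W b) := fun z _ => by
      rw [Qw]
      ring
    rw [Finset.sum_congr rfl this, Finset.sum_add_distrib, ← Finset.mul_sum]
    ring
  have j1 : ε * ∑ z ∈ B, ε * ∑ b ∈ S, KK A W z b * KK A W b w / mm A W b =
      ε * ∑ b ∈ S, (ε * ∑ z ∈ B, KK A W z b) * (KK A W b w / mm A W b) := by
    congr 1
    rw [← Finset.mul_sum, Finset.sum_comm, Finset.mul_sum]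
    refine Finset.sum_congr rfl fun b _ => ?_
    rw [mul_assoc, Finset.sum_mul]
    congr 1
    refine Finset.sum_congr rfl fun z _ => ?_
    ring
  have k3 : ε * ∑ z ∈ B, ε * ∑ b ∈ S, KK A W z b * KK A W b w / mm A W b ≤ mm A W w := by
    rw [j1]
    refine le_trans (mul_le_mul_of_nonneg_left (Finset.sum_le_sum fun b hb =>
      mul_le_mul_of_nonneg_right (sum_e_KK_le hA hε hW B b)
        (div_nonneg (KK_nonneg b w) (mm_pos hA hn b).le)) hε.le) ?_
    have j2 : ∀ b ∈ S, mm A W b * (KK A W b w / mm A W b) = KK A W b w := fun b _ =>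
      mul_div_cancel₀ _ (mm_pos hA hn b).ne'
    rw [Finset.sum_congr rfl j2]
    exact sum_e_KK_le hA hε hW S w
  rw [k2]
  linarith

/-- the diagonal term -/
theorem near_b1 (hA : A.IsSymm) (hε : 0 < ε) (hW : ∀ x, (W x).im = -ε) (S : Finset ι) (w : ι) :
    4 * ε * (‖Tn A W (hcut a S w) w w‖ * ‖Tm A W a w w‖) ≤
      1 / 8 * (ε * ∑ z, KK A W z w * hcut a S w z ^ 2) +
        32 * (mm A W w * muf A W a w ^ 2) := by
  have hn := hom_neg hε hW
  have hmw := mm_pos hA hn w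
  set e := ε * ∑ z, KK A W z w * hcut a S w z ^ 2 with he
  set N := ‖Tn A W (hcut a S w) w w‖ with hN
  set T := ‖Tm A W a w w‖ with hT
  have k1 : N ^ 2 ≤ mm A W w * e := Tn_self_le (a := a) hA hε hW S w
  have k2 : T ^ 2 = mm A W w ^ 2 * muf A W a w ^ 2 := by
    rw [hT, Tm_self hA hn, Complex.norm_real, Real.norm_eq_abs, sq_abs, mul_pow]
  have k3 := e_mul_mm_le hA hn w
  rw [hW w, neg_neg] at k3
  have he0 : 0 ≤ e := mul_nonneg hε.le
    (Finset.sum_nonneg fun z _ => mul_nonneg (KK_nonneg _ _) (sq_nonneg _))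
  refine amgm_sq (by positivity) (by positivity) ?_
  have k4 : (4 * ε * (N * T)) ^ 2 = 16 * ε ^ 2 * (N ^ 2 * T ^ 2) := by ring
  rw [k4, k2]
  have k6 : ε ^ 2 * mm A W w ^ 2 ≤ 1 := by
    have : 0 ≤ ε * mm A W w := by positivity
    nlinarith
  have k7 : 0 ≤ muf A W a w ^ 2 := sq_nonneg _
  calc 16 * ε ^ 2 * (N ^ 2 * (mm A W w ^ 2 * muf A W a w ^ 2)) ≤
        16 * ε ^ 2 * ((mm A W w * e) * (mm A W w ^ 2 * muf A W a w ^ 2)) := by gcongr
    _ = 16 * (mm A W w * e * muf A W a w ^ 2) * (ε ^ 2 * mm A W w ^ 2) := by ring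
    _ ≤ 16 * (mm A W w * e * muf A W a w ^ 2) * 1 := by gcongr
    _ = 4 * (1 / 8 * e) * (32 * (mm A W w * muf A W a w ^ 2)) := by ring

/-- the near terms with `κ ≤ 1/2` -/
theorem near_b3 (hA : A.IsSymm) (hε : 0 < ε) (hW : ∀ x, (W x).im = -ε) (S : Finset ι)
    {w z : ι} {H : ℝ} (hH : 0 ≤ H) (ha : ∀ z ∈ S, |a z - a w| ≤ H) {t : ℝ} (ht : 0 < t)
    (hz : kap A W z w ≤ 1 / 2) :
    4 * (‖Tn A W (hcut a S w) w z‖ * ‖Tm A W a z w‖) ≤
      2 / t * ((kap A W z w + lamS A W S z w) * ‖Tm A W a z w‖ ^ 2) +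
        t * H ^ 2 * (9 * (mm A W z * mm A W w) + 2 * Qw A W ε S z w) := by
  have hn := hom_neg hε hW
  have k1 := Tn_near_le (a := a) (z := z) hA hε hW S hH ha
  set x1 := ‖Gr A W z w‖ with hx1
  set x2 := xs A W ε (S.filter (fun y => y ≠ z ∧ y ≠ w)) z w with hx2
  set N := ‖Tn A W (hcut a S w) w z‖ with hN
  set T := ‖Tm A W a z w‖ with hT
  have hT0 : 0 ≤ T := norm_nonneg _
  have hmz := mm_pos hA hn z
  have hmw := mm_pos hA hn w
  have hk := kap_nonneg hA hn z w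
  have hl := lamS_nonneg hA hn S z w
  have hQ0 := Qw_nonneg hA hε hW S z w
  have k2 : x1 ^ 2 ≤ 2 * kap A W z w * (mm A W z * mm A W w) := KK_le_of_kap hA hn z w hz
  have k3 : x2 ^ 2 ≤ lamS A W S z w * Qw A W ε S z w := xs_sq_le hA hε hW S z w
  have k4 : 6 * H * x1 * T ≤ 2 / t * (kap A W z w * T ^ 2) +
      9 * t * H ^ 2 * (mm A W z * mm A W w) := by
    refine amgm_sq (by positivity) (by positivity) ?_
    calc (6 * H * x1 * T) ^ 2 = 36 * H ^ 2 * T ^ 2 * x1 ^ 2 := by ring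
      _ ≤ 36 * H ^ 2 * T ^ 2 * (2 * kap A W z w * (mm A W z * mm A W w)) := by gcongr
      _ = 4 * (2 / t * (kap A W z w * T ^ 2)) * (9 * t * H ^ 2 * (mm A W z * mm A W w)) := by
          field_simp
          ring
  have k5 : 4 * H * x2 * T ≤ 2 / t * (lamS A W S z w * T ^ 2) +
      2 * t * H ^ 2 * Qw A W ε S z w := by
    refine amgm_sq (by positivity) (by positivity) ?_
    calc (4 * H * x2 * T) ^ 2 = 16 * H ^ 2 * T ^ 2 * x2 ^ 2 := by ring
      _ ≤ 16 * H ^ 2 * T ^ 2 * (lamS A W S z w * Qw A W ε S z w) := by gcongr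
      _ = 4 * (2 / t * (lamS A W S z w * T ^ 2)) * (2 * t * H ^ 2 * Qw A W ε S z w) := by
          field_simp
          ring
  have k6 : 4 * (N * T) ≤ 6 * H * x1 * T + 4 * H * x2 * T := by
    have := mul_le_mul_of_nonneg_right k1 hT0
    linarith
  calc 4 * (N * T) ≤ _ := k6.trans (add_le_add k4 k5)
    _ = _ := by ring

/-- the near terms -/
theorem near_b5 (hA : A.IsSymm) (hε : 0 < ε) (hW : ∀ x, (W x).im = -ε) (S : Finset ι)
    {w z : ι} {H : ℝ} (hH : 0 ≤ H) (ha : ∀ z ∈ S, |a z - a w| ≤ H) {t : ℝ} (ht : 0 < t) :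
    4 * (‖Tn A W (hcut a S w) w z‖ * ‖Tm A W a z w‖) ≤
      1 / 2 * ‖Tn A W (hcut a S w) w z‖ ^ 2 + 16 * (kap A W z w * ‖Tm A W a z w‖ ^ 2) +
      2 / t * ((kap A W z w + lamS A W S z w) * ‖Tm A W a z w‖ ^ 2) +
        t * H ^ 2 * (9 * (mm A W z * mm A W w) + 2 * Qw A W ε S z w) := by
  have hn := hom_neg hε hW
  have hmz := mm_pos hA hn z
  have hmw := mm_pos hA hn w
  have hk := kap_nonneg hA hn z w
  have hl := lamS_nonneg hA hn S z w
  have hQ0 := Qw_nonneg hA hε hW S z w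
  have p1 : 0 ≤ 1 / 2 * ‖Tn A W (hcut a S w) w z‖ ^ 2 := by positivity
  have p2 : 0 ≤ 16 * (kap A W z w * ‖Tm A W a z w‖ ^ 2) := by positivity
  have p3 : 0 ≤ 2 / t * ((kap A W z w + lamS A W S z w) * ‖Tm A W a z w‖ ^ 2) := by positivity
  have p4 : 0 ≤ t * H ^ 2 * (9 * (mm A W z * mm A W w) + 2 * Qw A W ε S z w) := by positivity
  rcases le_total (1 / 2) (kap A W z w) with h1 | h1
  · have k1 : 4 * (‖Tn A W (hcut a S w) w z‖ * ‖Tm A W a z w‖) ≤
        1 / 2 * ‖Tn A W (hcut a S w) w z‖ ^ 2 + 8 * ‖Tm A W a z w‖ ^ 2 := by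
      nlinarith [sq_nonneg (‖Tn A W (hcut a S w) w z‖ - 4 * ‖Tm A W a z w‖)]
    have k2 : 8 * ‖Tm A W a z w‖ ^ 2 ≤ 16 * (kap A W z w * ‖Tm A W a z w‖ ^ 2) := by
      have := mul_le_mul_of_nonneg_right h1 (sq_nonneg ‖Tm A W a z w‖)
      linarith
    linarith
  · have := near_b3 (a := a) hA hε hW S hH ha ht h1
    linarith

/-- the far terms -/
theorem near_b4 (hA : A.IsSymm) (hε : 0 < ε) (hW : ∀ x, (W x).im = -ε) (S : Finset ι)
    {w z : ι} {H : ℝ} (hH : 0 ≤ H) (ha : ∀ z ∈ S, |a z - a w| ≤ H) {t' : ℝ} (ht' : 0 < t')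
    (hz : z ∉ S) :
    4 * (‖Tn A W (hcut a S w) w z‖ * ‖Tm A W a z w‖) ≤ 2 / t' * ‖Tm A W a z w‖ ^ 2 +
      2 * t' * H ^ 2 * (mm A W w * (ε * ∑ b ∈ S, KK A W z b)) := by
  have k1 := Tn_far_le (a := a) (w := w) hA hε hW S hH ha hz
  have k2 : 4 * (‖Tn A W (hcut a S w) w z‖ * ‖Tm A W a z w‖) ≤
      2 / t' * ‖Tm A W a z w‖ ^ 2 + 2 * t' * ‖Tn A W (hcut a S w) w z‖ ^ 2 := by
    refine amgm_sq (by positivity) (by positivity) (le_of_eq ?_)
    field_simp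
    ring
  have k3 : 2 * t' * ‖Tn A W (hcut a S w) w z‖ ^ 2 ≤
      2 * t' * (H ^ 2 * (mm A W w * (ε * ∑ b ∈ S, KK A W z b))) := by
    gcongr
  linarith

/-- `e_w = 4 ε Re ∑ conj(T^near) T ≤ 4 ε ∑ |T^near| |T|` -/
theorem near_e (hA : A.IsSymm) (hε : 0 < ε) (hW : ∀ x, (W x).im = -ε) (S : Finset ι) (w : ι) :
    ∑ z, KK A W z w * hcut a S w z ^ 2 ≤
      4 * ∑ z, ‖Tn A W (hcut a S w) w z‖ * ‖Tm A W a z w‖ := by
  have k1 := col_iso (a := a) hA hε hW (hcut a S w) w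
  have k2 := congrArg Complex.re k1
  rw [Complex.ofReal_re] at k2
  have k3 : (1 / 4) * ∑ z, hcut a S w z * (a z - a w) * KK A W z w ≤
      ∑ z, ‖Tn A W (hcut a S w) w z‖ * ‖Tm A W a z w‖ := by
    rw [← k2]
    refine (Complex.re_le_norm _).trans ((norm_sum_le _ _).trans (le_of_eq ?_))
    refine Finset.sum_congr rfl fun z _ => ?_
    rw [norm_mul, RCLike.norm_conj]
  have k4 : ∑ z, KK A W z w * hcut a S w z ^ 2 =
      ∑ z, hcut a S w z * (a z - a w) * KK A W z w := by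
    refine Finset.sum_congr rfl fun z _ => ?_
    rw [hcut]
    split_ifs <;> ring
  rw [k4]
  linarith

omit [Fintype ι] in
theorem sum_hcut [Fintype ι] (f : ι → ℝ) (S : Finset ι) (w : ι) :
    ∑ z, f z * hcut a S w z ^ 2 = ∑ z ∈ S, f z * (a z - a w) ^ 2 := by
  symm
  rw [← Finset.sum_subset (Finset.subset_univ S)]
  · refine Finset.sum_congr rfl fun z hz => ?_
    rw [hcut, if_pos hz]
  · intro z _ hz
    rw [hcut, if_neg hz]
    ring

/-- **pathwise near inequality** for one column -/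
theorem near_col (hA : A.IsSymm) (hε : 0 < ε) (hW : ∀ x, (W x).im = -ε) {w : ι}
    {S B : Finset ι} (hSB : S ⊆ B) (hwB : w ∈ B) {H : ℝ} (hH : 0 ≤ H)
    (ha : ∀ z ∈ S, |a z - a w| ≤ H) {t t' : ℝ} (ht : 0 < t) (ht' : 0 < t') :
    (3 / 4) * (ε * ∑ z ∈ S, KK A W z w * (a z - a w) ^ 2) ≤
      32 * (mm A W w * muf A W a w ^ 2) +
      16 * (ε * ∑ z ∈ B.erase w, kap A W z w * ‖Tm A W a z w‖ ^ 2) +
      2 / t * (ε * ∑ z ∈ B.erase w, (kap A W z w + lamS A W S z w) * ‖Tm A W a z w‖ ^ 2) +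
      t * H ^ 2 * (mm A W w *
        ((ε * ∑ z ∈ B, mm A W z) * (2 * (ε * ∑ z ∈ S, mm A W z) + 13) + 2)) +
      2 / t' * (ε * ∑ z ∈ Bᶜ, ‖Tm A W a z w‖ ^ 2) +
      2 * t' * H ^ 2 * (mm A W w * (ε * ∑ z ∈ Bᶜ, ε * ∑ b ∈ S, KK A W z b)) := by
  have hn := hom_neg hε hW
  have e0 := near_e (a := a) hA hε hW S w
  have e1 := near_b1 (a := a) hA hε hW S w
  have e2 := Tn_norm hA hε hW (hcut a S w) w
  rw [sum_hcut] at e0 e1 e2
  set e := ∑ z ∈ S, KK A W z w * (a z - a w) ^ 2 with he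
  set N := fun z => ‖Tn A W (hcut a S w) w z‖ with hN
  set T := fun z => ‖Tm A W a z w‖ with hT
  have s0 : ∑ z, N z * T z = N w * T w + ∑ z ∈ B.erase w, N z * T z + ∑ z ∈ Bᶜ, N z * T z := by
    rw [Finset.add_sum_erase B (fun z => N z * T z) hwB, Finset.sum_add_sum_compl]
  have s1 : 4 * ∑ z ∈ B.erase w, N z * T z ≤ 1 / 2 * ∑ z ∈ B.erase w, N z ^ 2 +
      16 * ∑ z ∈ B.erase w, kap A W z w * T z ^ 2 +
      2 / t * ∑ z ∈ B.erase w, (kap A W z w + lamS A W S z w) * T z ^ 2 +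
      t * H ^ 2 * ∑ z ∈ B.erase w, (9 * (mm A W z * mm A W w) + 2 * Qw A W ε S z w) := by
    rw [Finset.mul_sum]
    refine (Finset.sum_le_sum fun z _ => near_b5 (a := a) hA hε hW S hH ha ht).trans
      (le_of_eq ?_)
    simp only [Finset.sum_add_distrib, ← Finset.mul_sum, hN, hT]
  have s2 : ∑ z ∈ B.erase w, N z ^ 2 ≤ 1 / 4 * e := by
    rw [← e2]
    exact Finset.sum_le_sum_of_subset_of_nonneg (Finset.subset_univ _) fun z _ _ => sq_nonneg _
  have s3 : 4 * ∑ z ∈ Bᶜ, N z * T z ≤ 2 / t' * ∑ z ∈ Bᶜ, T z ^ 2 +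
      2 * t' * H ^ 2 * (mm A W w * ∑ z ∈ Bᶜ, ε * ∑ b ∈ S, KK A W z b) := by
    rw [Finset.mul_sum]
    refine (Finset.sum_le_sum fun z hz => near_b4 (a := a) hA hε hW S hH ha ht'
      (fun h2 => (Finset.mem_compl.1 hz) (hSB h2))).trans (le_of_eq ?_)
    simp only [Finset.sum_add_distrib, ← Finset.mul_sum, hT]
  have s4 : ε * ∑ z ∈ B.erase w, (9 * (mm A W z * mm A W w) + 2 * Qw A W ε S z w) ≤ mm A W w *
        ((ε * ∑ z ∈ B, mm A W z) * (2 * (ε * ∑ z ∈ S, mm A W z) + 13) + 2) := by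
    have k1 : ε * ∑ z ∈ B.erase w, (9 * (mm A W z * mm A W w) + 2 * Qw A W ε S z w) ≤
        ε * ∑ z ∈ B, (9 * (mm A W z * mm A W w) + 2 * Qw A W ε S z w) :=
      mul_le_mul_of_nonneg_left (Finset.sum_le_sum_of_subset_of_nonneg
        (Finset.erase_subset _ _) fun z _ _ => by
          have := mm_pos hA hn z
          have := mm_pos hA hn w
          have := Qw_nonneg hA hε hW S z w
          positivity) hε.le
    have k2 : ε * ∑ z ∈ B, (9 * (mm A W z * mm A W w) + 2 * Qw A W ε S z w) =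
        9 * mm A W w * (ε * ∑ z ∈ B, mm A W z) + 2 * (ε * ∑ z ∈ B, Qw A W ε S z w) := by
      rw [Finset.sum_add_distrib, ← Finset.mul_sum, ← Finset.mul_sum, ← Finset.sum_mul]
      ring
    have k3 := Qw_sum hA hε hW S B w
    rw [k2] at k1
    linarith
  have s5 := mul_le_mul_of_nonneg_left s4 (show 0 ≤ t * H ^ 2 by positivity)
  have s6 := mul_le_mul_of_nonneg_left s1 hε.le
  have s7 := mul_le_mul_of_nonneg_left s2 hε.le
  have s8 := mul_le_mul_of_nonneg_left s3 hε.le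
  have s9 := mul_le_mul_of_nonneg_left e0 hε.le
  rw [s0] at s9
  simp only [hN, hT] at s6 s7 s8 s9 ⊢
  linarith

end Cols

end P365L
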