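import Vale.Agent.P365.L1.Alg2

/-!
# P365, NEAR step: pathwise part (homogeneous absorption `(W x).im = -ε`).
-/

set_option linter.all false

namespace P365L

open Matrix Complex
open scoped ComplexConjugate

variable {ι : Type*} [Fintype ι] [DecidableEq ι]

/-- `κ_zw = K_zw / (m_z m_w + K_zw)` -/
noncomputable def kap (A : Matrix ι ι ℝ) (W : ι → ℂ) (z w : ι) : ℝ :=
  KK A W z w / (mm A W z * mm A W w + KK A W z w)

/-- `λ_zw = ∑_{y ≠ z,w} e_y m_y κ_zy κ_yw` -/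
noncomputable def lam (A : Matrix ι ι ℝ) (W : ι → ℂ) (z w : ι) : ℝ :=
  ∑ y ∈ Finset.univ.filter (fun y => y ≠ z ∧ y ≠ w),
    (-(W y).im) * mm A W y * (kap A W z y * kap A W y w)

variable {A : Matrix ι ι ℝ} {W : ι → ℂ} {a : ι → ℝ} {ε : ℝ}

theorem kap_den_pos (hA : A.IsSymm) (hW : ∀ x, (W x).im < 0) (z w : ι) :
    0 < mm A W z * mm A W w + KK A W z w :=
  add_pos_of_pos_of_nonneg (mul_pos (mm_pos hA hW z) (mm_pos hA hW w)) (KK_nonneg z w)

theorem kap_nonneg (hA : A.IsSymm) (hW : ∀ x, (W x).im < 0) (z w : ι) : 0 ≤ kap A W z w :=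
  div_nonneg (KK_nonneg z w) (kap_den_pos hA hW z w).le

theorem kap_lt_one (hA : A.IsSymm) (hW : ∀ x, (W x).im < 0) (z w : ι) : kap A W z w < 1 := by
  rw [kap, div_lt_one (kap_den_pos hA hW z w)]
  have := mul_pos (mm_pos hA hW z) (mm_pos hA hW w)
  linarith

theorem kap_symm (hA : A.IsSymm) (z w : ι) : kap A W z w = kap A W w z := by
  rw [kap, kap, KK_symm hA z w, mul_comm (mm A W z)]

theorem lam_nonneg (hA : A.IsSymm) (hW : ∀ x, (W x).im < 0) (z w : ι) : 0 ≤ lam A W z w :=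
  Finset.sum_nonneg fun y _ => mul_nonneg (mul_nonneg (by linarith [hW y]) (mm_pos hA hW y).le)
    (mul_nonneg (kap_nonneg hA hW z y) (kap_nonneg hA hW y w))

/-! ### the unitary `U = G^* G^{-1}` (homogeneous absorption) -/

section Hom

variable (hA : A.IsSymm) (hε : 0 < ε) (hW : ∀ x, (W x).im = -ε)

theorem hom_neg (hε : 0 < ε) (hW : ∀ x, (W x).im = -ε) : ∀ x, (W x).im < 0 := fun x => by
  rw [hW x]; linarith

theorem Ed_hom (hW : ∀ x, (W x).im = -ε) : Ed W = (ε : ℂ) • (1 : Matrix ι ι ℂ) := by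
  rw [Ed]
  ext x y
  rw [Matrix.smul_apply, smul_eq_mul]
  by_cases h : x = y
  · subst h
    rw [Matrix.diagonal_apply_eq, Matrix.one_apply_eq, hW x, neg_neg, mul_one]
  · rw [Matrix.diagonal_apply_ne _ h, Matrix.one_apply_ne h, mul_zero]

/-- `G` is normal -/
theorem Gr_normal (hA : A.IsSymm) (hε : 0 < ε) (hW : ∀ x, (W x).im = -ε) :
    Gr A W * (Gr A W)ᴴ = (Gr A W)ᴴ * Gr A W := by
  have h := GEG_comm hA (hom_neg hε hW)
  rw [Ed_hom hW, Matrix.mul_smul, Matrix.smul_mul, Matrix.mul_one, Matrix.mul_smul,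
    Matrix.smul_mul, Matrix.mul_one] at h
  have h3 : (ε : ℂ) ≠ 0 := by exact_mod_cast hε.ne'
  exact smul_right_injective _ h3 h

/-- `U = G^* K` -/
noncomputable def Um (A : Matrix ι ι ℝ) (W : ι → ℂ) : Matrix ι ι ℂ := (Gr A W)ᴴ * Kmat A W

theorem Um_eq (hA : A.IsSymm) (hε : 0 < ε) (hW : ∀ x, (W x).im = -ε) :
    Um A W = 1 - (2 * I * ε) • (Gr A W)ᴴ := by
  have h := GrH_mul_Kmat hA (hom_neg hε hW)
  have h2 : Matrix.diagonal (fun x => ((-(W x).im : ℝ) : ℂ)) = (ε : ℂ) • (1 : Matrix ι ι ℂ) :=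
    Ed_hom hW
  rw [Um, h, h2, Matrix.mul_smul, Matrix.mul_one, smul_smul]

theorem Um_unitary (hA : A.IsSymm) (hε : 0 < ε) (hW : ∀ x, (W x).im = -ε) :
    (Um A W)ᴴ * Um A W = 1 := by
  have hn := hom_neg hε hW
  rw [Um, Matrix.conjTranspose_mul, Matrix.conjTranspose_conjTranspose]
  have h1 : (Kmat A W)ᴴ * Gr A W * ((Gr A W)ᴴ * Kmat A W) =
      (Kmat A W)ᴴ * (Gr A W * (Gr A W)ᴴ) * Kmat A W := by
    simp only [Matrix.mul_assoc]
  have h2 : (Kmat A W)ᴴ * (Gr A W)ᴴ = 1 := by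
    rw [← Matrix.conjTranspose_mul, Gr_mul_Kmat hA hn, Matrix.conjTranspose_one]
  rw [h1, Gr_normal hA hε hW, ← Matrix.mul_assoc, h2, Matrix.one_mul, Gr_mul_Kmat hA hn]

theorem Um_inner (hA : A.IsSymm) (hε : 0 < ε) (hW : ∀ x, (W x).im = -ε) (r s : ι → ℂ) :
    ∑ z, conj ((Um A W).mulVec r z) * (Um A W).mulVec s z = ∑ z, conj (r z) * s z := by
  have h1 : ∑ z, conj ((Um A W).mulVec r z) * (Um A W).mulVec s z =
      dotProduct (star ((Um A W).mulVec r)) ((Um A W).mulVec s) := rfl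
  have h2 : ∑ z, conj (r z) * s z = dotProduct (star r) s := rfl
  rw [h1, h2, Matrix.star_mulVec, Matrix.dotProduct_mulVec, Matrix.vecMul_vecMul,
    Um_unitary hA hε hW, Matrix.vecMul_one]

theorem Um_norm (hA : A.IsSymm) (hε : 0 < ε) (hW : ∀ x, (W x).im = -ε) (r : ι → ℂ) :
    ∑ z, ‖(Um A W).mulVec r z‖ ^ 2 = ∑ z, ‖r z‖ ^ 2 := by
  have h := Um_inner hA hε hW r r
  have hc : ∀ u : ℂ, conj u * u = ((‖u‖ ^ 2 : ℝ) : ℂ) := fun u => by
    rw [← Complex.normSq_eq_norm_sq, Complex.normSq_eq_conj_mul_self]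
  simp only [hc] at h
  rw [← Complex.ofReal_sum, ← Complex.ofReal_sum] at h
  exact Complex.ofReal_injective h

/-- `T^near_{zw}` for a real function `h` (vanishing at `w`) -/
noncomputable def Tn (A : Matrix ι ι ℝ) (W : ι → ℂ) (h : ι → ℝ) (w z : ι) : ℂ :=
  (I / 2) * (h z * Gr A W z w) +
    ∑ b, ((-(W b).im : ℝ) : ℂ) * (conj (Gr A W z b) * (h b * Gr A W b w))

theorem Tn_eq (hA : A.IsSymm) (hε : 0 < ε) (hW : ∀ x, (W x).im = -ε) (h : ι → ℝ) (w z : ι) :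
    Tn A W h w z = (I / 2) * (Um A W).mulVec (fun b => (h b : ℂ) * Gr A W b w) z := by
  rw [Um_eq hA hε hW, Matrix.sub_mulVec, Matrix.one_mulVec, Matrix.smul_mulVec, Pi.sub_apply,
    Pi.smul_apply, smul_eq_mul, Tn, Matrix.mulVec, dotProduct]
  have h1 : ∀ b, ((-(W b).im : ℝ) : ℂ) * (conj (Gr A W z b) * (h b * Gr A W b w)) =
      (ε : ℂ) * ((Gr A W)ᴴ z b * ((h b : ℂ) * Gr A W b w)) := by
    intro b
    rw [hW b, GrH_apply hA, neg_neg]
  rw [Finset.sum_congr rfl fun b _ => h1 b, ← Finset.mul_sum]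
  linear_combination ((ε : ℂ) * ∑ b, (Gr A W)ᴴ z b * ((h b : ℂ) * Gr A W b w)) * Complex.I_mul_I

/-- column of `T` -/
theorem Tm_col (hA : A.IsSymm) (hε : 0 < ε) (hW : ∀ x, (W x).im = -ε) (w z : ι) :
    Tm A W a z w =
      (I / 2) * (Um A W).mulVec (fun b => ((a b : ℂ) - a w) * Gr A W b w) z := by
  have hn := hom_neg hε hW
  have h1 : (Gr A W)ᴴ * Bm A a * Gr A W = Um A W * (Gr A W * Bm A a * Gr A W) := by
    rw [Um]
    have : (Gr A W)ᴴ * Kmat A W * (Gr A W * Bm A a * Gr A W) =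
        (Gr A W)ᴴ * (Kmat A W * Gr A W) * Bm A a * Gr A W := by
      simp only [Matrix.mul_assoc]
    rw [this, Kmat_mul_Gr hA hn, Matrix.mul_one]
  rw [Tm, h1, Gr_Bm_Gr hA hn, Matrix.smul_apply, smul_eq_mul, Matrix.mul_apply]
  congr 1
  rw [Matrix.mulVec, dotProduct]
  refine Finset.sum_congr rfl fun b _ => ?_
  rw [Matrix.sub_apply, Matrix.diagonal_mul, Matrix.mul_diagonal]
  ring

/-- column isometry (mixed) -/
theorem col_iso (hA : A.IsSymm) (hε : 0 < ε) (hW : ∀ x, (W x).im = -ε) (h : ι → ℝ) (w : ι) :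
    ∑ z, (conj (Tn A W h w z) * Tm A W a z w) =
      (((1 / 4) * ∑ z, h z * (a z - a w) * KK A W z w : ℝ) : ℂ) := by
  have h1 : ∀ z, conj (Tn A W h w z) * Tm A W a z w = (1 / 4) *
      (conj ((Um A W).mulVec (fun b => (h b : ℂ) * Gr A W b w) z) *
        (Um A W).mulVec (fun b => ((a b : ℂ) - a w) * Gr A W b w) z) := by
    intro z
    rw [Tn_eq hA hε hW, Tm_col hA hε hW, map_mul, map_div₀, Complex.conj_I, map_ofNat]
    linear_combination (-(1 / 4) *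
      (conj ((Um A W).mulVec (fun b => (h b : ℂ) * Gr A W b w) z) *
        (Um A W).mulVec (fun b => ((a b : ℂ) - a w) * Gr A W b w) z)) * Complex.I_mul_I
  rw [Finset.sum_congr rfl fun z _ => h1 z, ← Finset.mul_sum, Um_inner hA hε hW]
  push_cast
  congr 1
  refine Finset.sum_congr rfl fun z _ => ?_
  have h5 : conj (Gr A W z w) * Gr A W z w = ((KK A W z w : ℝ) : ℂ) := by
    rw [KK, ← Complex.normSq_eq_norm_sq, Complex.normSq_eq_conj_mul_self]
  rw [map_mul, Complex.conj_ofReal]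
  linear_combination ((h z : ℂ) * ((a z : ℂ) - a w)) * h5

/-- column isometry for `T^near` -/
theorem Tn_norm (hA : A.IsSymm) (hε : 0 < ε) (hW : ∀ x, (W x).im = -ε) (h : ι → ℝ) (w : ι) :
    ∑ z, ‖Tn A W h w z‖ ^ 2 = (1 / 4) * ∑ z, KK A W z w * h z ^ 2 := by
  have h1 : ∀ z, ‖Tn A W h w z‖ ^ 2 =
      (1 / 4) * ‖(Um A W).mulVec (fun b => (h b : ℂ) * Gr A W b w) z‖ ^ 2 := by
    intro z
    rw [Tn_eq hA hε hW, norm_mul, mul_pow, norm_div, Complex.norm_I, Complex.norm_ofNat]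
    norm_num
  rw [Finset.sum_congr rfl fun z _ => h1 z, ← Finset.mul_sum, Um_norm hA hε hW]
  congr 1
  refine Finset.sum_congr rfl fun z _ => ?_
  rw [norm_mul, mul_pow, KK, Complex.norm_real, Real.norm_eq_abs, sq_abs]
  ring

/-- column isometry for `T` -/
theorem Tm_col_norm (hA : A.IsSymm) (hε : 0 < ε) (hW : ∀ x, (W x).im = -ε) (w : ι) :
    ∑ z, ‖Tm A W a z w‖ ^ 2 = (1 / 4) * ∑ z, KK A W z w * (a z - a w) ^ 2 := by
  have h1 : ∀ z, ‖Tm A W a z w‖ ^ 2 =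
      (1 / 4) * ‖(Um A W).mulVec (fun b => ((a b : ℂ) - a w) * Gr A W b w) z‖ ^ 2 := by
    intro z
    rw [Tm_col hA hε hW, norm_mul, mul_pow, norm_div, Complex.norm_I, Complex.norm_ofNat]
    norm_num
  rw [Finset.sum_congr rfl fun z _ => h1 z, ← Finset.mul_sum, Um_norm hA hε hW]
  congr 1
  refine Finset.sum_congr rfl fun z _ => ?_
  rw [norm_mul, mul_pow, KK, ← Complex.ofReal_sub, Complex.norm_real, Real.norm_eq_abs, sq_abs]
  ring

end Hom

end P365L
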