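import Vale.Agent.P365.L1.Near2

/-!
# P365, NEAR step: the pathwise inequality summed over the columns.

`d : ι → ι → ℝ` is any distance (for the torus `d x y = nrm (x - y)`), `Bl d w r` its balls.
`O` (allowed centres) and `Gd` (good sites) are arbitrary finsets (they may depend on the potential).
-/

set_option linter.all false

namespace P365L

open Matrix Complex
open scoped ComplexConjugate

variable {ι : Type*} [Fintype ι] [DecidableEq ι]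
variable {A : Matrix ι ι ℝ} {W : ι → ℂ} {φ : ι → ℝ} {ε : ℝ} {d : ι → ι → ℝ}

/-- ball of centre `w` and radius `r` -/
noncomputable def Bl (d : ι → ι → ℝ) (w : ι) (r : ℝ) : Finset ι := by
  classical
  exact Finset.univ.filter fun z => d z w ≤ r

omit [DecidableEq ι] in
theorem mem_Bl {w z : ι} {r : ℝ} : z ∈ Bl d w r ↔ d z w ≤ r := by
  classical
  simp [Bl]

omit [DecidableEq ι] in
theorem Bl_mono {w : ι} {r s : ℝ} (h : r ≤ s) : Bl d w r ⊆ Bl d w s := fun z hz => by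
  rw [mem_Bl] at hz ⊢
  exact hz.trans h

omit [DecidableEq ι] in
/-- `X(S) = ε ∑_S m` is monotone -/
theorem XS_mono (hA : A.IsSymm) (hε : 0 < ε) (hW : ∀ x, (W x).im = -ε) [DecidableEq ι]
    {S T : Finset ι} (h : S ⊆ T) : ε * ∑ z ∈ S, mm A W z ≤ ε * ∑ z ∈ T, mm A W z :=
  mul_le_mul_of_nonneg_left (Finset.sum_le_sum_of_subset_of_nonneg h fun z _ _ =>
    (mm_pos hA (hom_neg hε hW) z).le) hε.le

/-- the far term summed over the columns -/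
theorem far_sum (hA : A.IsSymm) (hε : 0 < ε) (hW : ∀ x, (W x).im = -ε)
    (hds : ∀ x y, d x y = d y x) (hdt : ∀ x y z, d x z ≤ d x y + d y z)
    {r r' : ℝ} {O Gd : Finset ι} {L : ℝ} (hL : 0 ≤ L)
    (hO : ∀ w ∈ O, ε * ∑ z ∈ Bl d w (2 * r), mm A W z ≤ L) :
    ∑ w ∈ O, mm A W w * (ε * ∑ z ∈ (Bl d w r')ᶜ, ε * ∑ b ∈ Bl d w r ∩ Gd, KK A W z b) ≤
      L * (ε * ∑ b, ∑ z ∈ (Bl d b (r' - r))ᶜ, KK A W z b) := by
  have hn := hom_neg hε hW
  set F : ι → ℝ := fun b => ε * ∑ z ∈ (Bl d b (r' - r))ᶜ, KK A W z b with hF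
  have hF0 : ∀ b, 0 ≤ F b := fun b =>
    mul_nonneg hε.le (Finset.sum_nonneg fun z _ => KK_nonneg _ _)
  -- one column
  have h1 : ∀ w ∈ O, mm A W w * (ε * ∑ z ∈ (Bl d w r')ᶜ, ε * ∑ b ∈ Bl d w r ∩ Gd, KK A W z b) ≤
      ∑ b, (if b ∈ Bl d w r then ε * mm A W w * F b else 0) := by
    intro w _
    have hmw := mm_pos hA hn w
    have k1 : ε * ∑ z ∈ (Bl d w r')ᶜ, ε * ∑ b ∈ Bl d w r ∩ Gd, KK A W z b =
        ε * ∑ b ∈ Bl d w r ∩ Gd, ε * ∑ z ∈ (Bl d w r')ᶜ, KK A W z b := by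
      congr 1
      rw [← Finset.mul_sum, ← Finset.mul_sum, Finset.sum_comm]
    have k2 : ∑ b ∈ Bl d w r ∩ Gd, ε * ∑ z ∈ (Bl d w r')ᶜ, KK A W z b ≤ ∑ b ∈ Bl d w r, F b := by
      refine (Finset.sum_le_sum fun b hb => ?_).trans
        (Finset.sum_le_sum_of_subset_of_nonneg Finset.inter_subset_left fun b _ _ => hF0 b)
      refine mul_le_mul_of_nonneg_left
        (Finset.sum_le_sum_of_subset_of_nonneg ?_ fun z _ _ => KK_nonneg _ _) hε.le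
      intro z hz
      rw [Finset.mem_compl, mem_Bl, not_le] at hz ⊢
      have hb2 := mem_Bl.1 (Finset.mem_inter.1 hb).1
      have := hdt z b w
      linarith
    rw [k1, ← Finset.sum_filter]
    have k3 : Finset.univ.filter (fun b => b ∈ Bl d w r) = Bl d w r := by
      ext b
      simp
    rw [k3]
    have k4 := mul_le_mul_of_nonneg_left k2 (mul_nonneg hε.le hmw.le)
    have k5 : mm A W w * (ε * ∑ b ∈ Bl d w r ∩ Gd, ε * ∑ z ∈ (Bl d w r')ᶜ, KK A W z b) =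
          ε * mm A W w * ∑ b ∈ Bl d w r ∩ Gd, ε * ∑ z ∈ (Bl d w r')ᶜ, KK A W z b := by ring
    rw [k5]
    refine k4.trans (le_of_eq ?_)
    rw [Finset.mul_sum]
  have h2 : ∀ b, ∑ w ∈ O, (if b ∈ Bl d w r then ε * mm A W w * F b else 0) ≤ L * F b := by
    intro b
    have k1 : ∑ w ∈ O, (if b ∈ Bl d w r then ε * mm A W w * F b else 0) =
        (∑ w ∈ O.filter (fun w => b ∈ Bl d w r), ε * mm A W w) * F b := by
      rw [Finset.sum_filter, Finset.sum_mul]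
      refine Finset.sum_congr rfl fun w _ => ?_
      split_ifs
      · rfl
      · rw [zero_mul]
    rw [k1]
    refine mul_le_mul_of_nonneg_right ?_ (hF0 b)
    rcases (O.filter (fun w => b ∈ Bl d w r)).eq_empty_or_nonempty with he | ⟨w0, hw0⟩
    · rw [he, Finset.sum_empty]
      exact hL
    · rw [Finset.mem_filter, mem_Bl] at hw0
      refine le_trans ?_ (hO w0 hw0.1)
      rw [Finset.mul_sum]
      refine Finset.sum_le_sum_of_subset_of_nonneg ?_ fun w _ _ =>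
        mul_nonneg hε.le (mm_pos hA hn w).le
      intro w hw
      rw [Finset.mem_filter, mem_Bl] at hw
      rw [mem_Bl]
      have := hdt w b w0
      have := hds w b
      linarith [hw.2, hw0.2]
  refine (Finset.sum_le_sum h1).trans ?_
  rw [Finset.sum_comm]
  refine (Finset.sum_le_sum fun b _ => h2 b).trans (le_of_eq ?_)
  rw [← Finset.mul_sum, hF, ← Finset.mul_sum]

/-- a column outside the allowed set -/
theorem near_bad (hA : A.IsSymm) (hε : 0 < ε) (hW : ∀ x, (W x).im = -ε)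
    (hφ : ∀ x y, |φ x - φ y| ≤ d x y) {r : ℝ} (T : Finset ι) {w : ι} (hT : T ⊆ Bl d w r) :
    ε * ∑ z ∈ T, KK A W z w * (φ z - φ w) ^ 2 ≤ r ^ 2 * (ε * ∑ z ∈ T, KK A W z w) := by
  have h1 : ∀ z ∈ T, KK A W z w * (φ z - φ w) ^ 2 ≤ r ^ 2 * KK A W z w := by
    intro z hz
    have k1 := mem_Bl.1 (hT hz)
    have k2 := hφ z w
    have k3 : (φ z - φ w) ^ 2 ≤ r ^ 2 := by
      rw [← sq_abs]
      exact pow_le_pow_left₀ (abs_nonneg _) (k2.trans k1) 2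
    have := mul_le_mul_of_nonneg_left k3 (KK_nonneg (A := A) (W := W) z w)
    linarith
  have h2 := mul_le_mul_of_nonneg_left (Finset.sum_le_sum h1) hε.le
  rw [← Finset.mul_sum] at h2
  linarith

/-- an allowed column -/
theorem near_ok (hA : A.IsSymm) (hε : 0 < ε) (hW : ∀ x, (W x).im = -ε)
    (hd0 : ∀ x, d x x = 0) (hφ : ∀ x y, |φ x - φ y| ≤ d x y)
    {r r' : ℝ} (hr : 0 ≤ r) (hrr : r ≤ r') (Gd : Finset ι) {L L' : ℝ} (hL : 0 ≤ L)
    (hL' : 0 ≤ L') {w : ι}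
    (hO : ε * ∑ z ∈ Bl d w (2 * r), mm A W z ≤ L)
    (hO' : ε * ∑ z ∈ Bl d w (2 * r'), mm A W z ≤ L') {t t' : ℝ} (ht : 0 < t) (ht' : 0 < t') :
    ε * ∑ z ∈ Bl d w r, KK A W z w * (φ z - φ w) ^ 2 ≤
      r ^ 2 * (ε * ∑ z ∈ Bl d w r \ Gd, KK A W z w) +
      4 / 3 * (32 * (mm A W w * muf A W φ w ^ 2) +
      16 * (ε * ∑ z ∈ (Bl d w r').erase w, kap A W z w * ‖Tm A W φ z w‖ ^ 2) +
      2 / t * (ε * ∑ z ∈ (Bl d w r').erase w,
        (kap A W z w + lamS A W (Bl d w r ∩ Gd) z w) * ‖Tm A W φ z w‖ ^ 2) +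
      t * r ^ 2 * ((L' * (2 * L + 13) + 2) * mm A W w) +
      2 / t' * (ε * ∑ z, ‖Tm A W φ z w‖ ^ 2) +
      2 * t' * r ^ 2 * (mm A W w *
        (ε * ∑ z ∈ (Bl d w r')ᶜ, ε * ∑ b ∈ Bl d w r ∩ Gd, KK A W z b))) := by
  have hn := hom_neg hε hW
  have hmw := mm_pos hA hn w
  have hSB : Bl d w r ∩ Gd ⊆ Bl d w r' := Finset.inter_subset_left.trans (Bl_mono hrr)
  have hwB : w ∈ Bl d w r' := by
    rw [mem_Bl, hd0]
    exact hr.trans hrr
  have ha : ∀ z ∈ Bl d w r ∩ Gd, |φ z - φ w| ≤ r := fun z hz =>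
    (hφ z w).trans (mem_Bl.1 (Finset.mem_inter.1 hz).1)
  have h1 := near_col (a := φ) hA hε hW hSB hwB hr ha ht ht'
  have h2 := near_bad hA hε hW hφ (Bl d w r \ Gd) (Finset.sdiff_subset (s := Bl d w r) (t := Gd))
  have h3 : ∑ z ∈ Bl d w r, KK A W z w * (φ z - φ w) ^ 2 =
      ∑ z ∈ Bl d w r \ Gd, KK A W z w * (φ z - φ w) ^ 2 +
      ∑ z ∈ Bl d w r ∩ Gd, KK A W z w * (φ z - φ w) ^ 2 := by
    have k1 := Finset.sum_sdiff (f := fun z => KK A W z w * (φ z - φ w) ^ 2)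
      (Finset.inter_subset_left (s₁ := Bl d w r) (s₂ := Gd))
    rw [Finset.sdiff_inter_self_left] at k1
    exact k1.symm
  set XB := ε * ∑ z ∈ Bl d w r', mm A W z with hXB
  set XS := ε * ∑ z ∈ Bl d w r ∩ Gd, mm A W z with hXS
  have h4 : XB ≤ L' := (XS_mono hA hε hW (Bl_mono (by linarith))).trans hO'
  have h5 : XS ≤ L := (XS_mono hA hε hW
    (Finset.inter_subset_left.trans (Bl_mono (by linarith)))).trans hO
  have h6 : 0 ≤ XB := mul_nonneg hε.le (Finset.sum_nonneg fun z _ => (mm_pos hA hn z).le)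
  have h7 : 0 ≤ XS := mul_nonneg hε.le (Finset.sum_nonneg fun z _ => (mm_pos hA hn z).le)
  have h8 : XB * (2 * XS + 13) + 2 ≤ L' * (2 * L + 13) + 2 := by
    have : XB * (2 * XS + 13) ≤ L' * (2 * L + 13) := by
      apply mul_le_mul h4 (by linarith) (by linarith) hL'
    linarith
  have h9 : t * r ^ 2 * (mm A W w * (XB * (2 * XS + 13) + 2)) ≤
      t * r ^ 2 * ((L' * (2 * L + 13) + 2) * mm A W w) := by
    have := mul_le_mul_of_nonneg_left h8 (mul_nonneg (mul_nonneg ht.le (sq_nonneg r)) hmw.le)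
    linarith
  have h10 : 2 / t' * (ε * ∑ z ∈ (Bl d w r')ᶜ, ‖Tm A W φ z w‖ ^ 2) ≤
      2 / t' * (ε * ∑ z, ‖Tm A W φ z w‖ ^ 2) := by
    refine mul_le_mul_of_nonneg_left (mul_le_mul_of_nonneg_left
      (Finset.sum_le_sum_of_subset_of_nonneg (Finset.subset_univ _) fun z _ _ => sq_nonneg _)
      hε.le) (by positivity)
  rw [h3, mul_add]
  linarith

omit [Fintype ι] [DecidableEq ι] in
theorem lin_comb (O : Finset ι) {F a b c d m f g : ι → ℝ} {c1 c2 c3 c4 c5 C : ℝ}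
    (h : ∀ w ∈ O, F w ≤ c1 * a w + 4 / 3 * (32 * b w + 16 * c w + c2 * d w + c3 * (C * m w) +
      c4 * f w + c5 * g w)) :
    ∑ w ∈ O, F w ≤ c1 * ∑ w ∈ O, a w + 4 / 3 * (32 * ∑ w ∈ O, b w + 16 * ∑ w ∈ O, c w +
      c2 * ∑ w ∈ O, d w + c3 * (C * ∑ w ∈ O, m w) + c4 * ∑ w ∈ O, f w + c5 * ∑ w ∈ O, g w) := by
  refine (Finset.sum_le_sum h).trans (le_of_eq ?_)
  simp only [Finset.sum_add_distrib, ← Finset.mul_sum]

/-- **the pathwise near inequality summed over all columns** -/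
theorem near_sum (hA : A.IsSymm) (hε : 0 < ε) (hW : ∀ x, (W x).im = -ε)
    (hd0 : ∀ x, d x x = 0) (hds : ∀ x y, d x y = d y x) (hdt : ∀ x y z, d x z ≤ d x y + d y z)
    (hφ : ∀ x y, |φ x - φ y| ≤ d x y)
    {r r' : ℝ} (hr : 0 ≤ r) (hrr : r ≤ r') (O Gd : Finset ι) {L L' : ℝ} (hL : 0 ≤ L)
    (hL' : 0 ≤ L')
    (hO : ∀ w ∈ O, ε * ∑ z ∈ Bl d w (2 * r), mm A W z ≤ L)
    (hO' : ∀ w ∈ O, ε * ∑ z ∈ Bl d w (2 * r'), mm A W z ≤ L') {t t' : ℝ} (ht : 0 < t)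
    (ht' : 0 < t') :
    ε ^ 2 * ∑ w, ∑ z ∈ Bl d w r, KK A W z w * (φ z - φ w) ^ 2 ≤
      ε * r ^ 2 * (∑ w ∈ Oᶜ, mm A W w + ∑ z ∈ Gdᶜ, mm A W z) +
      4 / 3 * (32 * (ε * ∑ w, mm A W w * muf A W φ w ^ 2) +
      16 * (ε ^ 2 * ∑ w ∈ O, ∑ z ∈ (Bl d w r').erase w, kap A W z w * ‖Tm A W φ z w‖ ^ 2) +
      2 / t * (ε ^ 2 * ∑ w ∈ O, ∑ z ∈ (Bl d w r').erase w,
        (kap A W z w + lamS A W (Bl d w r ∩ Gd) z w) * ‖Tm A W φ z w‖ ^ 2) +
      t * (ε * r ^ 2) * ((L' * (2 * L + 13) + 2) * ∑ w, mm A W w) +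
      2 / t' * (ε ^ 2 * ∑ w, ∑ z, ‖Tm A W φ z w‖ ^ 2) +
      2 * t' * (ε * r ^ 2) * (L * (ε * ∑ b, ∑ z ∈ (Bl d b (r' - r))ᶜ, KK A W z b))) := by
  have hn := hom_neg hε hW
  have hm0 : ∀ w, 0 ≤ mm A W w := fun w => (mm_pos hA hn w).le
  -- split the columns
  have h0 : ε ^ 2 * ∑ w, ∑ z ∈ Bl d w r, KK A W z w * (φ z - φ w) ^ 2 =
      ε * (∑ w ∈ O, ε * ∑ z ∈ Bl d w r, KK A W z w * (φ z - φ w) ^ 2) +
      ε * ∑ w ∈ Oᶜ, ε * ∑ z ∈ Bl d w r, KK A W z w * (φ z - φ w) ^ 2 := by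
    rw [← mul_add, Finset.sum_add_sum_compl, ← Finset.mul_sum]
    ring
  have h1 : ∑ w ∈ Oᶜ, ε * ∑ z ∈ Bl d w r, KK A W z w * (φ z - φ w) ^ 2 ≤
      r ^ 2 * ∑ w ∈ Oᶜ, mm A W w := by
    rw [Finset.mul_sum]
    refine Finset.sum_le_sum fun w _ => ?_
    refine (near_bad hA hε hW hφ (Bl d w r) (Finset.Subset.refl _)).trans ?_
    exact mul_le_mul_of_nonneg_left (sum_e_KK_le hA hε hW _ w) (sq_nonneg r)
  have h2 := lin_comb O fun w hw =>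
      near_ok hA hε hW hd0 hφ hr hrr Gd hL hL' (hO w hw) (hO' w hw) ht ht'
  have h3 : ∑ w ∈ O, ε * ∑ z ∈ Bl d w r \ Gd, KK A W z w ≤ ∑ z ∈ Gdᶜ, mm A W z := by
    have k1 : ∀ w ∈ O, ε * ∑ z ∈ Bl d w r \ Gd, KK A W z w ≤ ∑ z ∈ Gdᶜ, ε * KK A W z w := by
      intro w _
      rw [Finset.mul_sum]
      refine Finset.sum_le_sum_of_subset_of_nonneg ?_ fun z _ _ =>
        mul_nonneg hε.le (KK_nonneg _ _)
      intro z hz
      rw [Finset.mem_compl]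
      exact (Finset.mem_sdiff.1 hz).2
    refine (Finset.sum_le_sum k1).trans ?_
    rw [Finset.sum_comm]
    refine Finset.sum_le_sum fun z _ => ?_
    have k2 := sum_e_KK_le hA hε hW O z
    rw [Finset.mul_sum] at k2
    refine le_trans (le_of_eq ?_) k2
    refine Finset.sum_congr rfl fun w _ => ?_
    rw [KK_symm hA z w]
  have h4 := far_sum (r' := r') (Gd := Gd) hA hε hW hds hdt hL hO
  have h5 : ∑ w ∈ O, mm A W w * muf A W φ w ^ 2 ≤ ∑ w, mm A W w * muf A W φ w ^ 2 :=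
    Finset.sum_le_sum_of_subset_of_nonneg (Finset.subset_univ _) fun w _ _ =>
      mul_nonneg (hm0 w) (sq_nonneg _)
  have h6 : ∑ w ∈ O, mm A W w ≤ ∑ w, mm A W w :=
    Finset.sum_le_sum_of_subset_of_nonneg (Finset.subset_univ _) fun w _ _ => hm0 w
  have h7 : ∑ w ∈ O, ε * ∑ z, ‖Tm A W φ z w‖ ^ 2 ≤ ε * ∑ w, ∑ z, ‖Tm A W φ z w‖ ^ 2 := by
    rw [← Finset.mul_sum]
    exact mul_le_mul_of_nonneg_left (Finset.sum_le_sum_of_subset_of_nonneg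
      (Finset.subset_univ _) fun w _ _ => Finset.sum_nonneg fun z _ => sq_nonneg _) hε.le
  have g1 := mul_le_mul_of_nonneg_left h3 (mul_nonneg hε.le (sq_nonneg r))
  have g2 := mul_le_mul_of_nonneg_left h1 hε.le
  have g3 := mul_le_mul_of_nonneg_left h2 hε.le
  have g4 := mul_le_mul_of_nonneg_left h4
    (show 0 ≤ 2 * t' * (ε * r ^ 2) by positivity)
  have g5 := mul_le_mul_of_nonneg_left h5 hε.le
  have hC : 0 ≤ t * (ε * r ^ 2) * (L' * (2 * L + 13) + 2) := by positivity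
  have g6 := mul_le_mul_of_nonneg_left h6 hC
  have g7 := mul_le_mul_of_nonneg_left h7 (show 0 ≤ 2 / t' * ε by positivity)
  have e1 : ∑ w ∈ O, ε * ∑ z ∈ (Bl d w r').erase w, kap A W z w * ‖Tm A W φ z w‖ ^ 2 =
      ε * ∑ w ∈ O, ∑ z ∈ (Bl d w r').erase w, kap A W z w * ‖Tm A W φ z w‖ ^ 2 :=
    (Finset.mul_sum _ _ _).symm
  have e2 : ∑ w ∈ O, ε * ∑ z ∈ (Bl d w r').erase w,
        (kap A W z w + lamS A W (Bl d w r ∩ Gd) z w) * ‖Tm A W φ z w‖ ^ 2 =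
      ε * ∑ w ∈ O, ∑ z ∈ (Bl d w r').erase w,
        (kap A W z w + lamS A W (Bl d w r ∩ Gd) z w) * ‖Tm A W φ z w‖ ^ 2 :=
    (Finset.mul_sum _ _ _).symm
  rw [e1, e2] at g3
  rw [h0]
  linarith

end P365L
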